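import Crest.Agent.R287.Core

/-!
# Balance and cost of the base graph, and the connector statement
-/

namespace Crest.Agent.R287

open Finset

variable {S : List Str} {f g : Str → ℕ}

theorem sumT_congr (h : ∀ s ∈ subL S, f s = g s) (s : Str) : sumT S f s = sumT S g s := by
  rw [sumT_eq, sumT_eq]
  exact sum_congr rfl fun r hr => h r (mem_Sub.1 (mem_filter.1 hr).1)

theorem sumD_congr (h : ∀ s ∈ subL S, f s = g s) (s : Str) : sumD S f s = sumD S g s := by
  rw [sumD_eq, sumD_eq]
  exact sum_congr rfl fun r hr => h r (mem_Sub.1 (mem_filter.1 hr).1)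

theorem bsum_congr (h : ∀ s ∈ subL S, f s = g s) (A : ℤ → ℕ) (q : ℕ → Bool) :
    bsum S f A q = bsum S g A q := by
  rw [bsum_eq, bsum_eq]
  exact sum_congr rfl fun i hi => h _ (mem_bidx.1 hi).1

theorem rule_congr (h : ∀ s ∈ subL S, f s = g s) (s : Str) {w : Str} (hw : w ∈ subL S) :
    rule S f s w = rule S g s w := by
  simp only [rule, bsum_congr h, h w hw]

theorem countP_arcsOf (S : List Str) (f : Str → ℕ) (p : Arc → Bool) :
    (arcsOf S f).countP p = ∑ s ∈ Sub S, ((if p (s.dropLast, s) then f s - sumT S f s else 0) +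
      if p (s, s.tail) then f s - sumD S f s else 0) := by
  rw [arcsOf, List.countP_flatMap, sum_subL]
  simp only [Function.comp, List.countP_append, List.countP_replicate]

theorem up_mem {s : Str} (hs : s ∈ subL S) (h : sumT S f s < f s) :
    (s.dropLast, s) ∈ arcsOf S f :=
  List.mem_flatMap.2 ⟨s, hs, List.mem_append_left _ (List.mem_replicate.2 ⟨by omega, rfl⟩)⟩

theorem down_mem {s : Str} (hs : s ∈ subL S) (h : sumD S f s < f s) :
    (s, s.tail) ∈ arcsOf S f :=
  List.mem_flatMap.2 ⟨s, hs, List.mem_append_right _ (List.mem_replicate.2 ⟨by omega, rfl⟩)⟩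

theorem countP_down (S : List Str) (f : Str → ℕ) (p : Str → Prop) [DecidablePred p] :
    (arcsOf S f).countP (fun e => decide (e.2.length < e.1.length ∧ p e.1)) =
      ∑ s ∈ (Sub S).filter p, (f s - sumD S f s) := by
  rw [countP_arcsOf, sum_filter]
  refine sum_congr rfl fun s hs => ?_
  have := List.length_pos_iff.2 (mem_subL.1 (mem_Sub.1 hs)).1
  have h1 : ¬ s.length < s.length - 1 := by omega
  have h2 : s.length - 1 < s.length := by omega
  simp [h1, h2]

theorem tail_dropLast (q : Str) : q.tail.dropLast = q.dropLast.tail := by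
  cases q with
  | nil => rfl
  | cons a q => cases q <;> simp

theorem Valid.bal (hf : Valid S f) :
    ((arcsOf S f).map Prod.fst).Perm ((arcsOf S f).map Prod.snd) := by
  rw [List.perm_iff_count]
  intro v
  simp only [List.count_eq_countP, List.countP_map, countP_arcsOf, Function.comp, beq_iff_eq,
    sum_add_distrib, sum_ite_eq', ← sum_filter]
  have hX : ∑ s ∈ (Sub S).filter (fun s => s.dropLast = v), (f s - sumT S f s) +
      ∑ s ∈ (Sub S).filter (fun s => s.dropLast = v), sumT S f s = sumD S f v := by
    rw [← sum_add_distrib, sumD_eq]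
    exact sum_congr rfl fun s hs => Nat.sub_add_cancel (hf.T s (mem_Sub.1 (mem_filter.1 hs).1))
  have hY : ∑ s ∈ (Sub S).filter (fun s => s.tail = v), (f s - sumD S f s) +
      ∑ s ∈ (Sub S).filter (fun s => s.tail = v), sumD S f s = sumT S f v := by
    rw [← sum_add_distrib, sumT_eq]
    exact sum_congr rfl fun s hs => Nat.sub_add_cancel (hf.D s (mem_Sub.1 (mem_filter.1 hs).1))
  have hZ : ∑ s ∈ (Sub S).filter (fun s => s.dropLast = v), sumT S f s =
      ∑ s ∈ (Sub S).filter (fun s => s.tail = v), sumD S f s := by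
    simp only [sumT_eq, sumD_eq]
    rw [sum_fiberwise_eq_sum_filter, sum_fiberwise_eq_sum_filter]
    refine sum_congr (filter_congr fun q hq => ?_) fun _ _ => rfl
    rw [mem_Sub] at hq
    simp only [mem_filter, mem_Sub, tail_dropLast]
    refine and_congr_left fun _ => ⟨fun h => subL_infix hq (List.dropLast_prefix q).isInfix ?_,
      fun h => subL_infix hq (List.tail_suffix q).isInfix ?_⟩
    all_goals
      have := List.length_pos_iff.2 (mem_subL.1 h).1
      rw [← List.length_pos_iff]
      simpa using this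
  by_cases hv : v ∈ Sub S
  · have := hf.T v (mem_Sub.1 hv)
    have := hf.D v (mem_Sub.1 hv)
    simp only [filter_eq', if_pos hv, sum_singleton]
    omega
  · have : sumD S f v = sumT S f v := by
      rw [sumD_eq, sumT_eq]
      refine sum_congr (filter_congr fun q hq => ?_) fun _ _ => rfl
      rw [mem_Sub] at hq hv
      by_cases h0 : v = []
      · subst h0
        rw [← List.length_eq_zero_iff, ← List.length_eq_zero_iff]; simp
      · constructor
        · rintro rfl; exact absurd (subL_infix hq (List.dropLast_prefix q).isInfix h0) hv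
        · rintro rfl; exact absurd (subL_infix hq (List.tail_suffix q).isInfix h0) hv
    simp only [filter_eq', if_neg hv, sum_empty]
    omega

theorem balStmt : BalStmt := fun S => (valid_mm S).bal

section
variable {Tok : Type} [Fintype Tok] {P : Pre Tok}

open Classical in
theorem fiber_card (hsub : ∀ z, P.top z ∈ subL S) (hc : ∀ s ∈ subL S, P.cnt s = f s)
    {s : Str} (hs : s ∈ subL S) :
    f s - sumD S f s = (univ.filter fun z => P.top z = s).card := by
  have h1 := pc_split P.top hsub s
  have h2 : pc P.top = P.cnt := rfl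
  rw [h2, sumD_congr hc, hc s hs] at h1
  omega

open Classical in
theorem countP_down_tok (hsub : ∀ z, P.top z ∈ subL S) (hc : ∀ s ∈ subL S, P.cnt s = f s)
    (p : Str → Prop) [DecidablePred p] :
    (arcsOf S f).countP (fun e => decide (e.2.length < e.1.length ∧ p e.1)) =
      (univ.filter fun z => p (P.top z)).card := by
  rw [countP_down, card_eq_sum_card_fiberwise (f := P.top) (t := (Sub S).filter p)]
  · refine sum_congr rfl fun s hs => ?_
    rw [mem_filter, mem_Sub] at hs
    rw [fiber_card hsub hc hs.1]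
    congr 1
    ext z
    simp only [mem_filter, mem_univ, true_and]
    exact ⟨fun h => ⟨h ▸ hs.2, h⟩, fun h => h.2⟩
  · intro z hz
    simpa [hsub z] using hz

theorem cost_eq_card (hsub : ∀ z, P.top z ∈ subL S) (hc : ∀ s ∈ subL S, P.cnt s = f s) :
    cost (arcsOf S f) = Fintype.card Tok := by
  have := countP_down_tok hsub hc fun _ => True
  simpa [cost] using this

theorem card_eq_letters (hsub : ∀ z, P.top z ∈ subL S) (hc : ∀ s ∈ subL S, P.cnt s = f s) :
    Fintype.card Tok = ∑ r ∈ (Sub S).filter fun r => r.length = 1, f r := by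
  classical
  rw [← sum_congr rfl fun r hr => hc r (mem_Sub.1 (mem_filter.1 hr).1),
    P.sum_cnt_length (l := 1) fun r hr => (mem_filter.1 hr).2, filter_true_of_mem, card_univ]
  intro z _
  have h : seg (P.txt z) 0 1 <+: P.top z := seg_prefix (by have := P.len_pos z; omega)
  exact ⟨_, mem_filter.2 ⟨mem_Sub.2 (subL_infix (hsub z) h.isInfix (seg_ne_nil (by omega))),
    by simp⟩, h⟩

theorem cl_of_closed (hsub : ∀ z, P.top z ∈ subL S) (hc : ∀ s ∈ subL S, P.cnt s = f s)
    {R : List Str} (hR : ∀ e ∈ arcsOf S f, (e.1 ∈ R ↔ e.2 ∈ R)) : P.Cl {v | v ∈ R} := by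
  classical
  have hd : ∀ z, P.top z ∈ R ↔ (P.top z).tail ∈ R := fun z =>
    hR _ (down_mem (hsub z) (by
      have h1 := fiber_card hsub hc (hsub z)
      have h2 : 0 < (univ.filter fun y => P.top y = P.top z).card := card_pos.2 ⟨z, by simp⟩
      omega))
  have hu : ∀ z x v, P.G z (x - 1) < v → v ≤ P.G z x →
      (seg (P.txt z) x (v - 1) ∈ R ↔ seg (P.txt z) x v ∈ R) := by
    intro z x v h1 h2
    have h3 := P.lt_G z (x - 1)
    have hp : seg (P.txt z) x v <+: P.top (P.sh x z) := by rw [P.top_sh]; exact seg_prefix h2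
    have hs := subL_infix (hsub _) hp.isInfix (seg_ne_nil (by omega))
    rw [← seg_dropLast]
    refine hR _ (up_mem hs ?_)
    rw [← sumT_congr hc, ← hc _ hs, P.cnt_sh _ 1]
    have := sumT_pc P.top hsub (seg (P.txt z) x v)
    rw [show pc P.top = P.cnt from rfl] at this
    rw [this]
    refine card_lt_card ⟨fun y hy => ?_, fun h => ?_⟩
    · simp only [mem_filter, mem_univ, true_and] at hy ⊢
      rw [P.sh_one]; exact hy.trans (P.tail_top_prefix y)
    · have := h (show P.sh (x - 1) z ∈ _ by
        simp only [mem_filter, mem_univ, true_and]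
        rw [← P.sh_add, add_sub_cancel]; exact hp)
      have := (mem_filter.1 this).2.length_le
      rw [List.length_tail, P.top_sh, length_seg, length_seg] at this
      omega
  have hrow : ∀ z x v, P.G z (x - 1) ≤ v → v ≤ P.G z x →
      (seg (P.txt z) x v ∈ R ↔ P.top (P.sh (x - 1) z) ∈ R) := by
    intro z x v h1
    induction v, h1 using Int.leInduction with
    | base => intro _; rw [hd, P.top_sh, seg_tail, sub_add_cancel]
    | succ v hv ih =>
      intro h2
      rw [← hu z x (v + 1) (by omega) h2, add_sub_cancel_right]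
      exact ih (by omega)
  have hstep : ∀ z x, P.top (P.sh x z) ∈ R ↔ P.top (P.sh (x - 1) z) ∈ R := fun z x => by
    rw [← hrow z x _ (P.G_mono z (by omega)) le_rfl, P.top_sh]
  have hall : ∀ z x, P.top (P.sh x z) ∈ R ↔ P.top z ∈ R := by
    intro z x
    induction x using Int.induction_on with
    | zero => simp
    | succ k ih => rw [hstep, add_sub_cancel_right, ih]
    | pred k ih => rw [← hstep, ih]
  intro z x v h1 h2
  simp only [Set.mem_ofPred_eq]
  rw [hrow z x v h1 h2, hall]

end

theorem costStmt : CostStmt := by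
  intro S T hT
  obtain ⟨Tok, _, Q, h1, h2⟩ := exists_sys_valid (valid_mm S)
  have hc : ∀ s ∈ subL S, Q.cnt s = mm S s := fun s hs => h2 s (mem_subL.1 hs).1
  rw [base, cost_eq_card h1 hc, card_eq_letters h1 hc]
  exact sum_letters_le hT

theorem connStmt : ConnStmt := by
  classical
  intro S R h0 hR s hs hmax hsR
  obtain ⟨Tok, _, Q, h1, h2⟩ := exists_sys_valid (valid_mm S)
  have hc : ∀ s ∈ subL S, Q.cnt s = mm S s := fun s hs => h2 s (mem_subL.1 hs).1
  have hr : Q.RuleOK S := fun s hs w hw => by
    rw [rule_congr hc s hw, hc s hs]; exact (valid_mm S).rule s hs w hw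
  obtain ⟨Z, k, g1, g2, ⟨u, hu, g3⟩, g4, g5, g6⟩ := Q.exists_good (R := {v | v ∈ R}) h1 hr h0
    (cl_of_closed h1 hc hR) (by rw [hc s hs]; exact (valid_mm S).one s hs) hmax hsR
  refine ⟨(Z, k), ?_, g1, g2, g5, fun R' a1 _ a3 => ?_⟩
  · have b1 := (g6 Set.univ (fun _ _ _ _ _ => by simp) fun _ _ => trivial).trans (card_le_univ _)
    have b2 := costStmt S S.flatten fun s hs => List.infix_of_mem_flatten hs
    rw [base, cost_eq_card h1 hc] at b2
    have b3 : k ≤ S.flatten.length := by
      rcases g4 with rfl | ⟨z, hz⟩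
      · exact Nat.zero_le _
      · have := length_le_of_mem_subL (h1 z)
        rw [Q.length_top] at this
        omega
    simp only [fam, List.mem_flatMap, List.mem_map, List.mem_range]
    exact ⟨u, hu, Z.length, by omega, k, g1, by rw [← g3]⟩
  · have b1 := g6 {v | v ∈ R'} (cl_of_closed h1 hc a1) a3
    have b2 := countP_down_tok h1 hc fun v => v ∈ R' ∧ v ∉ R
    rw [base, b2]
    refine b1.trans (le_of_eq ?_)
    rw [Pre.new]
    congr 1
    ext z
    simp

end Crest.Agent.R287
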