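import Crest.Agent.R287.Fire

/-!
# The connector theorem for sorted token systems
-/

namespace Crest.Agent.R287

open Finset

namespace Pre

variable {Tok : Type} [Fintype Tok] (P : Pre Tok)

/-- A loop that touches the root set and is paid by the tokens it roots. -/
def Good (S : List Str) (R : Set Str) (Z : Str) (k : ℕ) : Prop :=
  k < Z.length ∧ Z.take k = Z.drop (Z.length - k) ∧ (∃ u ∈ subL S, Z = cyc u Z.length) ∧
    (k = 0 ∨ ∃ z, k ≤ P.len z) ∧ (∃ v ∈ R, LV Z k v) ∧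
    ∀ R' : Set Str, P.Cl R' → (∀ v, LV Z k v → v ∈ R') → Z.length - k ≤ (P.new R R').card

/-- All vertices of the layer of `z` are longer than its period. -/
def Long (z : Tok) : Prop := ∀ x, x + P.pd z < P.G z (x - 1)

variable {P} {S : List Str} {R : Set Str}

theorem Long.fam (hsub : ∀ z, P.top z ∈ subL S) {z : Tok} (hz : P.Long z) {x y : ℤ}
    (h : x ≤ y) : ∃ u ∈ subL S, seg (P.txt z) x y = cyc u (seg (P.txt z) x y).length := by
  have hp := P.pd_pos z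
  refine ⟨seg (P.txt z) x (x + P.pd z), subL_infix (hsub (P.sh x z)) ?_ (seg_ne_nil (by omega)), ?_⟩
  · rw [top_sh]
    have := hz x
    have := P.G_mono z (show x - 1 ≤ x by omega)
    exact (seg_prefix (by omega)).isInfix
  · rw [cyc_seg hp (P.per_txt z), length_seg]
    congr 1; omega

theorem good_str {A : ℤ → ℕ} {x y : ℤ} (h0 : [] ∈ R) (hxy : x < y)
    (hf : ∃ u ∈ subL S, seg A x y = cyc u (seg A x y).length)
    (hb : ∀ R' : Set Str, P.Cl R' → (∀ y', y' ≤ y → seg A x y' ∈ R') →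
      (∀ x', x ≤ x' → seg A x' y ∈ R') → y - x ≤ (P.new R R').card) :
    P.Good S R (seg A x y) 0 := by
  refine ⟨by rw [length_seg]; omega, by simp, hf, Or.inl rfl,
    ⟨[], h0, le_rfl, Or.inl List.nil_prefix⟩, fun R' h1 h2 => ?_⟩
  have := hb R' h1 (fun y' h => h2 _ ⟨Nat.zero_le _, Or.inl (seg_prefix h)⟩)
    fun x' h => h2 _ ⟨Nat.zero_le _, Or.inr (seg_suffix h)⟩
  rw [length_seg]; omega

theorem good_self (hsub : ∀ z, P.top z ∈ subL S) (h0 : [] ∈ R) (hR : P.Cl R) {z : Tok}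
    (hz : P.top z ∉ R) (hl : ¬ P.Long z) : ∃ Z k, P.Good S R Z k := by
  simp only [Long, not_forall, not_lt] at hl
  obtain ⟨x, hx⟩ := hl
  have hm := P.G_mono z (show x - 1 ≤ x by omega)
  have hlt : x < P.G z (x - 1) := by
    by_contra hc
    have := hR z x _ le_rfl hm
    rw [seg_nil (by omega)] at this
    exact hz (this.1 h0)
  refine ⟨_, _, good_str (A := P.txt z) h0 hlt ⟨_, subL_infix (hsub (P.sh x z)) ?_
    (seg_ne_nil hlt), (cyc_self _).symm⟩ fun R' h1 h2 _ => ?_⟩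
  · rw [top_sh]; exact (seg_prefix hm).isInfix
  · have := bud1 hR h1 ((h1 z x _ le_rfl hm).1 (h2 _ le_rfl)) hz
    omega

theorem good_loop (hsub : ∀ z, P.top z ∈ subL S) (hR : P.Cl R) {z : Tok} (hz : P.top z ∉ R)
    (hl : P.Long z) {x c : ℤ} (hxc : x ≤ c) (hk : ∃ y, c - x ≤ P.len y)
    (hv : ∃ v, c ≤ v ∧ v ≤ c + P.pd z ∧ seg (P.txt z) x v ∈ R)
    (hw : (∃ v, c ≤ v ∧ v ≤ c + P.pd z ∧ P.G z (x - 1) ≤ v ∧ v ≤ P.G z x) ∨
      ∃ a, x ≤ a ∧ a ≤ x + P.pd z ∧ P.G z (a - 1) ≤ c + P.pd z ∧ c + P.pd z ≤ P.G z a) :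
    ∃ Z k, P.Good S R Z k := by
  have hp := P.pd_pos z
  have hlen : (seg (P.txt z) x (c + P.pd z)).length - (c - x).toNat = P.pd z := by
    rw [length_seg]; omega
  refine ⟨seg (P.txt z) x (c + P.pd z), (c - x).toNat, by omega, ?_, hl.fam hsub (by omega),
    Or.inr (let ⟨y, hy⟩ := hk; ⟨y, by omega⟩), ?_, fun R' h1 h2 => ?_⟩
  · rw [hlen, seg_take (by omega), seg_drop, (P.per_txt z).seg]
    congr 1; omega
  · obtain ⟨v, h1, h2, h3⟩ := hv
    exact ⟨_, h3, by rw [length_seg]; omega, Or.inl (seg_prefix h2)⟩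
  · rw [hlen]
    refine bud1 hR h1 ?_ hz
    rcases hw with ⟨v, a1, a2, a3, a4⟩ | ⟨a, a1, a2, a3, a4⟩
    · exact (h1 z x v a3 a4).1 (h2 _ ⟨by rw [length_seg]; omega, Or.inl (seg_prefix a2)⟩)
    · exact (h1 z a _ a3 a4).1 (h2 _ ⟨by rw [length_seg]; omega, Or.inr (seg_suffix a1)⟩)

theorem good_link (hsub : ∀ z, P.top z ∈ subL S) (hR : P.Cl R) {z y : Tok} (hz : P.top z ∉ R)
    (hl : P.Long z) (hy : P.top y ∈ R) {α β : ℤ}
    (ha : ∀ n, α ≤ n → n < β → P.txt y n = P.txt z n) (hb : P.Band z y α β) :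
    ∃ Z k, P.Good S R Z k := by
  obtain ⟨x, v, b1, b2, b3, b4, b5, b6⟩ := hb
  have hp := P.pd_pos z
  have h1 := P.lt_G y (x - 1)
  have h2 := P.G_mono z (show x - 1 ≤ x by omega)
  have h3 := hl x
  have hv : seg (P.txt z) x v ∈ R := by
    rw [← seg_congr (B := P.txt y) fun n a1 a2 => ha n (by omega) (by omega)]
    exact (hR y x v b3 b4).2 hy
  have hlen : v - x ≤ P.len (P.sh x y) := by simp only [G] at b4; omega
  by_cases hc : v ≤ P.G z x
  · exact good_loop hsub hR hz hl (x := x) (c := v) (by omega) ⟨_, hlen⟩ ⟨v, le_rfl, by omega, hv⟩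
      (Or.inl ⟨max v (P.G z (x - 1)), by omega⟩)
  · obtain ⟨a, a1, a2, a3, a4⟩ := exists_cross (f := P.G z) (x := x) (x' := x + P.pd z) (y := v)
      (by omega) (by omega) (by rw [G_pd]; omega)
    exact good_loop hsub hR hz hl (x := x) (c := v - P.pd z) (by omega) ⟨P.sh x y, by omega⟩
      ⟨v, by omega, by omega, hv⟩ (Or.inr ⟨a, by omega⟩)

omit [Fintype Tok] in
theorem lt_of_unrooted (h0 : [] ∈ R) (hR : P.Cl R) {y : Tok} (hy : P.top y ∉ R) (α : ℤ) :
    α < P.G y (α - 1) := by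
  by_contra hc
  have := hR y α _ le_rfl (P.G_mono y (by omega))
  rw [seg_nil (by omega)] at this
  exact hy (this.1 h0)

theorem good_pair (hsub : ∀ z, P.top z ∈ subL S) (h0 : [] ∈ R) (hR : P.Cl R) {z k y : Tok}
    (hl : P.Long z) (e : P.txt k = P.txt z) (hk : P.top k ∉ R) (hy : P.top y ∉ R) {α β : ℤ}
    (ha : ∀ n, α ≤ n → n < β → P.txt y n = P.txt z n) (hne : P.txt y ≠ P.txt z)
    (h1 : P.G y (α - 1) ≤ β) (h2 : P.G k (α - 1) ≤ β) : ∃ Z k, P.Good S R Z k := by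
  have hlt := lt_of_unrooted h0 hR hy α
  have p1 := P.pd_pos k
  have p2 := P.pd_pos y
  refine ⟨_, _, good_str (A := P.txt z) (x := α) (y := β) h0 (by omega)
    (hl.fam hsub (by omega)) fun R' g1 g2 _ => ?_⟩
  have r1 : P.top k ∈ R' := (g1 k α _ le_rfl (P.G_mono k (by omega))).1 (e ▸ g2 _ h2)
  have r2 : P.top y ∈ R' := by
    refine (g1 y α _ le_rfl (P.G_mono y (by omega))).1 ?_
    rw [seg_congr (B' := P.txt z) fun n a1 a2 => ha n a1 (by omega)]
    exact g2 _ h1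
  by_cases hs : P.Same y k
  · have := bud1 hR g1 r1 hk
    by_contra hc
    exact hne (eq_of_agree (p := P.pd k) (by omega) (hs.pd ▸ P.per_txt y) (e ▸ P.per_txt k)
      (by omega) ha)
  · have := bud2 hR g1 r1 hk r2 hy hs
    by_contra hc
    exact hne (eq_of_agree₂ (by omega) (by omega) (P.per_txt y) (e ▸ P.per_txt k) (by omega) ha)

theorem Long.not_same {z y : Tok} (hl : P.Long z) {α β : ℤ}
    (ha : ∀ n, α ≤ n → n < β → P.txt y n = P.txt z n) (hne : P.txt y ≠ P.txt z)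
    (h1 : P.G y (α - 1) ≤ β) : ¬ P.Same y z := by
  intro hs
  have hp := P.pd_pos z
  have e := hs.pd
  obtain ⟨k, rfl⟩ := hs
  have := hl (α + k)
  rw [G_sh, show α - 1 + k = α + k - 1 by ring] at h1
  exact hne (eq_of_agree (p := P.pd z) (by omega) (e ▸ P.per_txt _) (P.per_txt z) (by omega) ha)

/-- An entering run of an unrooted token strictly below the staircase of `z`. -/
def TypeC (P : Pre Tok) (R : Set Str) (z y : Tok) (α β : ℤ) : Prop :=
  P.top y ∉ R ∧ (∀ n, α ≤ n → n < β → P.txt y n = P.txt z n) ∧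
    P.txt y (α - 1) ≠ P.txt z (α - 1) ∧ P.G y (α - 1) ≤ β ∧ β < P.G z (α - 1)

theorem good_triple (hsub : ∀ z, P.top z ∈ subL S) (h0 : [] ∈ R) (hR : P.Cl R) {z : Tok}
    (hz : P.top z ∉ R) (hl : P.Long z)
    (h : ∀ i, ∃ y α β, α ≤ i ∧ P.G z i - P.pd z ≤ β ∧ P.TypeC R z y α β) :
    ∃ Z k, P.Good S R Z k := by
  obtain ⟨l, ⟨y, α, β, ⟨c1, c2, c3, c4, c5⟩, rfl⟩, hmax⟩ := Int.exists_greatest_of_bdd
    (P := fun l => ∃ y α β, P.TypeC R z y α β ∧ l = β - α)
    ⟨(univ.sup P.len : ℕ), by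
      rintro _ ⟨y, α, β, hc, rfl⟩
      have h1 := hc.2.2.2.2
      have h2 : P.len (P.sh (α - 1) z) ≤ univ.sup P.len := le_sup (mem_univ _)
      simp only [G] at h1
      omega⟩
    (let ⟨y, α, β, _, _, hc⟩ := h 0; ⟨_, y, α, β, hc, rfl⟩)
  obtain ⟨y', α', β', d1, d2, hc'⟩ := h (α - 1)
  have d3 := hmax _ ⟨y', α', β', hc', rfl⟩
  obtain ⟨e1, e2, e3, e4, e5⟩ := hc'
  have p1 := P.pd_pos z
  have p2 := P.pd_pos y
  have p3 := P.pd_pos y'
  have l1 := lt_of_unrooted h0 hR c1 α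
  have l2 := lt_of_unrooted h0 hR e1 α'
  have d4 : α < α' + P.pd z := by
    by_contra hc
    have h1 := P.G_mono z (show α' - 1 + P.pd z ≤ α - 1 by omega)
    rw [G_pd] at h1
    omega
  obtain ⟨a, a1, a2, a3, a4⟩ := exists_cross (f := P.G y') (x := α' - 1) (x' := β') (y := β' + 1)
    (by omega) (by omega) (by have := P.lt_G y' β'; omega)
  have n1 : P.txt y ≠ P.txt z := fun e => c3 (by rw [e])
  have n2 : P.txt y' ≠ P.txt z := fun e => e3 (by rw [e])
  refine ⟨_, _, good_str (A := P.txt z) (x := α) (y := β' + P.pd z) h0 (by omega)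
    (hl.fam hsub (by omega)) fun R' g1 g2 g3 => ?_⟩
  have r0 : P.top z ∈ R' := (g1 z α _ le_rfl (P.G_mono z (by omega))).1 (g2 _ (by omega))
  have r1 : P.top y ∈ R' := by
    refine (g1 y α _ le_rfl (P.G_mono y (by omega))).1 ?_
    rw [seg_congr (B' := P.txt z) fun n a1 a2 => c2 n a1 (by omega)]
    exact g2 _ (by omega)
  have r2 : P.top y' ∈ R' := by
    refine (g1 y' a β' (by omega) (by omega)).1 ?_
    rw [seg_congr (B' := P.txt z) fun n b1 b2 => e2 n (by omega) b2, ← (P.per_txt z).seg]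
    exact g3 _ (by omega)
  have s1 := hl.not_same c2 n1 c4
  have s2 := hl.not_same e2 n2 e4
  have b2 := bud2 hR g1 r0 hz r1 c1 s1
  by_contra hc
  have hne : P.txt y' ≠ P.txt y := fun e => c3 (by rw [← e]; exact e2 _ d1 (by omega))
  have hag : ∀ n, α ≤ n → n < β' → P.txt y' n = P.txt y n := fun n b1 b2 => by
    rw [e2 n (by omega) b2, c2 n b1 (by omega)]
  by_cases hs : P.Same y' y
  · exact hne (eq_of_agree (p := P.pd y) (by omega) (hs.pd ▸ P.per_txt y') (P.per_txt y)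
      (by omega) hag)
  · have b3 := bud3 hR g1 r0 hz r1 c1 r2 e1 s1 s2 hs
    exact hne (eq_of_agree₂ (by omega) (by omega) (P.per_txt y') (P.per_txt y) (by omega) hag)

/-- A foreign run far above the staircase of `z`. -/
def Far (P : Pre Tok) (z : Tok) : Prop :=
  ∃ y α β, (∀ n, α ≤ n → n < β → P.txt y n = P.txt z n) ∧ P.txt y ≠ P.txt z ∧
    P.G z α + P.pd z < P.G y (α - 1) ∧ P.G y (α - 1) ≤ β

theorem G_le_of_near {y z : Tok} (e : P.pd y = P.pd z) {i : ℤ}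
    (h : P.G z (i - 1) - P.pd z ≤ P.G y i) (x : ℤ) :
    P.G z (x - 1) ≤ P.G y x + 2 * P.pd z := by
  have hp := P.pd_pos z
  have h1 := Int.emod_nonneg (x - i) (show (P.pd z : ℤ) ≠ 0 by omega)
  have h2 := Int.emod_lt_of_pos (x - i) (show (0 : ℤ) < P.pd z by omega)
  have h3 := Int.emod_add_mul_ediv (x - i) (P.pd z)
  set r := (x - i) % (P.pd z : ℤ)
  set k := (x - i) / (P.pd z : ℤ)
  have e1 : x - 1 = (i + r - 1) + k * P.pd z := by linarith [mul_comm k (P.pd z : ℤ)]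
  have e2 : x = (i + r) + k * P.pd y := by rw [e]; linarith [mul_comm k (P.pd z : ℤ)]
  have a1 := P.G_mul_pd z k (i + r - 1)
  have a2 := P.G_mul_pd y k (i + r)
  rw [← e1] at a1
  rw [← e2, e] at a2
  have a3 := P.G_mono z (show i + r - 1 ≤ i - 1 + P.pd z by omega)
  have a4 := P.G_mono y (show i ≤ i + r by omega)
  rw [G_pd] at a3
  omega

end Pre

namespace Sys

variable {Tok : Type} [Fintype Tok] (Q : Sys Tok) {S : List Str} {R : Set Str}

theorem good_or_far (hsub : ∀ z, Q.top z ∈ subL S) (hr : Q.RuleOK S) (h0 : [] ∈ R)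
    (hR : Q.Cl R) (z : Tok) (hz : Q.top z ∉ R) : (∃ Z k, Q.Good S R Z k) ∨ Q.Far z := by
  induction hn : Q.rank z using Nat.strong_induction_on generalizing z with
  | _ n ih =>
  by_contra hc
  obtain ⟨hG, hF⟩ := not_or.1 hc
  have hl : Q.Long z := by
    by_contra hl
    exact hG (Pre.good_self hsub h0 hR hz hl)
  have hband : ∀ y α β, (∀ n, α ≤ n → n < β → Q.txt y n = Q.txt z n) → Q.txt y ≠ Q.txt z →
      Q.G y (α - 1) ≤ β → Q.NotLow z y α β → Q.top y ∉ R := by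
    intro y α β a1 a2 a3 a4 hy
    refine hG (Pre.good_link hsub hR hz hl hy a1 (a4.band ?_))
    by_contra hc
    exact hF ⟨y, α, β, a1, a2, by omega, a3⟩
  refine hG (Pre.good_triple hsub h0 hR hz hl fun i => ?_)
  have m1 := Q.G_mono z (show i - 1 ≤ i by omega)
  have m2 := hl i
  rcases Pre.fire₂ hsub hr z m1 (by omega) le_rfl with ⟨y, e, b1, b2⟩ | ⟨y, α, β, b1, b2, b3, b4, b5, b6⟩
  · exfalso
    have hy : Q.top y ∉ R := fun hy =>
      hG (Pre.good_link hsub hR hz hl hy (α := i) (β := Q.G y i) (fun n _ _ => by rw [e])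
        ⟨i, Q.G y i, le_rfl, le_rfl, Q.G_mono y (by omega), le_rfl, by omega, by omega⟩)
    rcases ih _ (hn ▸ Q.rank_lt e b2) y hy rfl with h | ⟨x, α, β, a1, a2, a3, a4⟩
    · exact hG h
    have ep := Q.pd_eq_of_txt e
    have a5 := Pre.G_le_of_near ep (i := i) (by omega) α
    have a6 := Q.G_mono y (show α - 1 ≤ α by omega)
    rw [e] at a1 a2
    have hx := hband x α β a1 a2 a4
      ⟨α, Q.G x (α - 1), le_rfl, a4, le_rfl, Q.G_mono x (by omega), by omega⟩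
    exact hG (Pre.good_pair hsub h0 hR hl e hy hx a1 a2 a4 (by omega))
  · have hne : Q.txt y ≠ Q.txt z := fun e => b4 (by rw [e])
    have hy := hband y α β b3 hne b5 b6
    refine ⟨y, α, β, b1, b2, hy, b3, b4, b5, ?_⟩
    by_contra hc
    exact hG (Pre.good_pair hsub h0 hR hl rfl hz hy b3 hne b5 (by omega))

theorem exists_good (hsub : ∀ z, Q.top z ∈ subL S) (hr : Q.RuleOK S) (h0 : [] ∈ R)
    (hR : Q.Cl R) {s : Str} (h1 : 1 ≤ Q.cnt s) (hmax : ∀ r ∈ subL S, s <:+: r → r = s)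
    (hs : s ∉ R) : ∃ Z k, Q.Good S R Z k := by
  obtain ⟨z, hz⟩ := card_pos.1 h1
  rw [Pre.mem_occ] at hz
  have e := hmax _ (hsub z) hz.isInfix
  rcases Q.good_or_far hsub hr h0 hR z (e ▸ hs) with h | ⟨y, α, β, a1, a2, a3, a4⟩
  · exact h
  exfalso
  have hp := Q.pd_pos z
  have h1 := Int.emod_nonneg α (show (Q.pd z : ℤ) ≠ 0 by omega)
  have h2 := Int.emod_lt_of_pos α (show (0 : ℤ) < Q.pd z by omega)
  have h3 := Int.emod_add_mul_ediv α (Q.pd z)
  set k := α / (Q.pd z : ℤ) + 1 with hk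
  have k1 : α < k * Q.pd z := by rw [hk]; linarith [mul_comm (α / (Q.pd z : ℤ)) (Q.pd z : ℤ)]
  have k2 : k * Q.pd z ≤ α + Q.pd z := by
    rw [hk]; linarith [mul_comm (α / (Q.pd z : ℤ)) (Q.pd z : ℤ)]
  have g1 := Q.G_mono z k2
  rw [Pre.G_pd] at g1
  have g2 := Q.lt_G z (k * Q.pd z)
  have e2 : s = seg (Q.txt z) (k * Q.pd z) (Q.G z (k * Q.pd z)) := by
    rw [← Pre.top_sh, Pre.sh_mul_pd, e]
  have hv : seg (Q.txt z) α (Q.G y (α - 1)) ∈ subL S := by
    refine subL_infix (hsub (Q.sh α y)) ?_ (seg_ne_nil (by omega))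
    rw [Pre.top_sh, ← seg_congr (B := Q.txt y) fun n b1 b2 => a1 n b1 (by omega)]
    exact (seg_prefix (Q.G_mono y (by omega))).isInfix
  have := congrArg List.length (hmax _ hv (e2 ▸ seg_infix k1.le (by omega)))
  rw [e2, length_seg, length_seg] at this
  omega

end Sys

end Crest.Agent.R287
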