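import Crest.Agent.Lib.PolyTime.More

/-!
# Row 287 (shortest common superstring, factor 2): the algorithm and the interfaces

* `mm S` : forced occurrence counts (fixed point of `phi S`, computed by iteration);
* `base S` : the balanced arc list of the hierarchical graph given by `mm S`;
* `absorb` : Hierholzer's procedure (a walk swallows all arcs it can reach);
* `ostep` : add one loop from the family `fam S` if it pays for itself;
* `alg S` : the string spelled by the final closed walk.
-/

namespace Crest.Agent.R287

abbrev Str := List ℕ
abbrev Arc := Str × Str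

/-- The nonempty substrings of the members of `S`, without repetition. -/
def subL (S : List Str) : List Str :=
  ((S.flatMap fun x => x.tails.flatMap List.inits).dedup).filter fun s => !s.isEmpty

/-- The `p`-periodic two-sided text generated by the first `p` letters of `w`. -/
def per (w : Str) (p : ℕ) (n : ℤ) : ℕ := w.getD (n % (p : ℤ)).toNat 0

/-- `r`, placed at offset `-pos`, agrees with the text `A` exactly in its interior. -/
def blk (A : ℤ → ℕ) (r : Str) (pos : ℕ) : Bool :=
  decide (0 < pos) && (List.range r.length).all fun k =>
    decide (r.getD k 0 = A ((k : ℤ) - (pos : ℤ))) == (decide (0 < k) && decide (k + 1 < r.length))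

/-- Total weight of the blocked runs whose right mismatch position satisfies `q`. -/
def bsum (S : List Str) (f : Str → ℕ) (A : ℤ → ℕ) (q : ℕ → Bool) : ℕ :=
  ((subL S).map fun r => ((List.range r.length).map fun pos =>
    if blk A r pos && q (r.length - 1 - pos) then f r else 0).sum).sum

/-- The run rule for the border `s` of `w`. -/
def rule (S : List Str) (f : Str → ℕ) (s w : Str) : ℕ :=
  if s.length < w.length ∧ w.take s.length = s ∧ w.drop (w.length - s.length) = s ∧
      bsum S f (per w (w.length - s.length)) (fun b => decide (w.length ≤ b)) < f w then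
    f w + bsum S f (per w (w.length - s.length))
      (fun b => decide (s.length ≤ b) && decide (b < w.length)) + 1
  else 0

/-- Weight of the one-letter extensions to the left. -/
def sumT (S : List Str) (f : Str → ℕ) (s : Str) : ℕ :=
  ((subL S).map fun r => if r.tail = s then f r else 0).sum

/-- Weight of the one-letter extensions to the right. -/
def sumD (S : List Str) (f : Str → ℕ) (s : Str) : ℕ :=
  ((subL S).map fun r => if r.dropLast = s then f r else 0).sum

def phi (S : List Str) (f : Str → ℕ) (s : Str) : ℕ :=
  if s ∈ subL S then
    max (max 1 (max (sumT S f s) (sumD S f s))) (((subL S).map (rule S f s)).foldr max 0)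
  else 0

/-- The forced counts. -/
def mm (S : List Str) : Str → ℕ := (phi S)^[S.flatten.length + 1] fun _ => 0

/-- The arcs given by a count function. -/
def arcsOf (S : List Str) (f : Str → ℕ) : List Arc :=
  (subL S).flatMap fun s => List.replicate (f s - sumT S f s) (s.dropLast, s) ++
    List.replicate (f s - sumD S f s) (s, s.tail)

def base (S : List Str) : List Arc := arcsOf S (mm S)

/-- The end vertex of a walk. -/
def lastV (W : List Arc) : Str := (W.getLastD ([], [])).2

/-- One step of Hierholzer's procedure on (walk, unused arcs). -/
def astep (st : List Arc × List Arc) : List Arc × List Arc :=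
  (st.2.find? fun e => e.1 == lastV st.1).elim
    ((st.2.find? fun e => st.1.any fun a => a.1 == e.1).elim st
      fun e => (st.1.rotate (st.1.findIdx fun a => a.1 == e.1) ++ [e], st.2.erase e))
    fun e => (st.1 ++ [e], st.2.erase e)

def absorb (st : List Arc × List Arc) : List Arc × List Arc := astep^[st.2.length] st

/-- The loop through the prefixes and suffixes of `Z` of length at least `k`. -/
def opArcs (Z : Str) (k : ℕ) : List Arc :=
  ((List.range (Z.length - k)).map fun i => (Z.take (k + i), Z.take (k + i + 1))) ++
    ((List.range (Z.length - k)).map fun i => (Z.drop i, Z.drop (i + 1)))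

/-- The number of proper down arcs. -/
def cost (L : List Arc) : ℕ := L.countP fun e => decide (e.2.length < e.1.length)

/-- The string spelled by a walk. -/
def spell (W : List Arc) : Str :=
  W.flatMap fun e => if e.2.length < e.1.length then e.1.take 1 else []

/-- The periodic extension of `u` to length `L`. -/
def cyc (u : Str) (L : ℕ) : Str := (List.range L).map fun i => u.getD (i % u.length) 0

/-- The candidate loops. -/
def fam (S : List Str) : List (Str × ℕ) :=
  (subL S).flatMap fun u => (List.range (2 * S.flatten.length + 1)).flatMap fun L =>
    (List.range L).map fun k => (cyc u L, k)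

def tryOp (st : List Arc × List Arc) (op : Str × ℕ) : List Arc × List Arc :=
  absorb (st.1, opArcs op.1 op.2 ++ st.2)

def okOp (st : List Arc × List Arc) (op : Str × ℕ) : Bool :=
  decide (op.2 < op.1.length) && decide (op.1.take op.2 = op.1.drop (op.1.length - op.2)) &&
    ((opArcs op.1 op.2).all fun e => (tryOp st op).1.any fun a => a.1 == e.1) &&
    decide (op.1.length - op.2 + cost (tryOp st op).2 ≤ cost st.2)

def ostep (F : List (Str × ℕ)) (st : List Arc × List Arc) : List Arc × List Arc :=
  (F.find? (okOp st)).elim st (tryOp st)

def finalWalk (S : List Str) : List Arc :=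
  ((ostep (fam S))^[S.flatten.length + 1] (absorb ([([], [])], base S))).1

/-- The algorithm. -/
def alg (S : List Str) : Str :=
  spell ((finalWalk S).rotate ((finalWalk S).findIdx fun a => a.1 == []))

/-! ### Interfaces -/

/-- All iterates of `phi` are bounded by the total length. -/
def BoundStmt : Prop :=
  ∀ (S : List Str) (k : ℕ) (s : Str), (phi S)^[k] (fun _ => 0) s ≤ S.flatten.length

/-- The base graph is balanced. -/
def BalStmt : Prop := ∀ S : List Str, ((base S).map Prod.fst).Perm ((base S).map Prod.snd)

/-- The base graph costs at most the optimum. -/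
def CostStmt : Prop :=
  ∀ (S : List Str) (T : Str), (∀ s ∈ S, s <:+: T) → cost (base S) ≤ T.length

/-- `R` is a union of components of the base graph. -/
def ClosedB (S : List Str) (R : List Str) : Prop := ∀ e ∈ base S, (e.1 ∈ R ↔ e.2 ∈ R)

/-- The vertices of the loop `opArcs Z k`. -/
def LV (Z : Str) (k : ℕ) (v : Str) : Prop := k ≤ v.length ∧ (v <+: Z ∨ v <:+ Z)

/-- As long as a maximal substring is not rooted, some loop of the family pays for itself. -/
def ConnStmt : Prop :=
  ∀ (S : List Str) (R : List Str), [] ∈ R → ClosedB S R →
    ∀ s₀ ∈ subL S, (∀ r ∈ subL S, s₀ <:+: r → r = s₀) → s₀ ∉ R →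
      ∃ op ∈ fam S, op.2 < op.1.length ∧ op.1.take op.2 = op.1.drop (op.1.length - op.2) ∧
        (∃ v ∈ R, LV op.1 op.2 v) ∧
        ∀ R' : List Str, ClosedB S R' → (∀ v ∈ R, v ∈ R') → (∀ v, LV op.1 op.2 v → v ∈ R') →
          op.1.length - op.2 ≤ (base S).countP fun e =>
            decide (e.2.length < e.1.length ∧ e.1 ∈ R' ∧ e.1 ∉ R)

/-- The algorithm is correct. -/
def AlgStmt : Prop :=
  ∀ S : List Str, (∀ s ∈ S, s <:+: alg S) ∧
    ∀ T : Str, (∀ s ∈ S, s <:+: T) → (alg S).length ≤ 2 * T.length

end Crest.Agent.R287
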