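import Crest.Agent.R287.Defs

/-!
# Row 287: Hierholzer's procedure and the correctness of the main loop
-/

set_option autoImplicit false

namespace Crest.Agent.R287

namespace Euler

/-- `W` is a walk from `x` to `y`. -/
def Path (x : Str) (W : List Arc) (y : Str) : Prop :=
  W.map Prod.fst ++ [y] = x :: W.map Prod.snd

/-- balanced lists of arcs -/
def Bal (L : List Arc) : Prop := (L.map Prod.fst).Perm (L.map Prod.snd)

theorem path_nil {x y : Str} : Path x [] y ↔ y = x := by simp [Path]

theorem path_cons {x y : Str} {a : Arc} {W : List Arc} :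
    Path x (a :: W) y ↔ a.1 = x ∧ Path a.2 W y := by simp [Path]

theorem path_append {x y : Str} {W W' : List Arc} :
    Path x (W ++ W') y ↔ ∃ z, Path x W z ∧ Path z W' y := by
  induction W generalizing x with
  | nil => simp [path_nil]
  | cons a W ih => simp [path_cons, ih, and_assoc]

theorem Path.lastV {x y : Str} {W : List Arc} (h : Path x W y) (hW : W ≠ []) : lastV W = y := by
  obtain ⟨W', a, rfl⟩ := List.eq_nil_or_concat' W |>.resolve_left hW
  obtain ⟨z, -, h2⟩ := path_append.1 h
  rw [path_cons, path_nil] at h2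
  delta R287.lastV
  simp [h2.2]

theorem Path.bal {x : Str} {W : List Arc} (h : Path x W x) : Bal W := by
  have h1 : (x :: W.map Prod.fst).Perm (x :: W.map Prod.snd) :=
    (List.perm_append_singleton x _).symm.trans (List.Perm.of_eq h)
  exact h1.cons_inv

theorem Path.rotate {x v : Str} {W : List Arc} (h : Path x W x) (hv : v ∈ W.map Prod.fst) :
    Path v (W.rotate (W.findIdx fun a => a.1 == v)) v := by
  have hi : (W.findIdx fun a => a.1 == v) < W.length := by
    rw [List.findIdx_lt_length]
    obtain ⟨a, ha, rfl⟩ := List.mem_map.1 hv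
    exact ⟨a, ha, by simp⟩
  have hp := List.findIdx_getElem (w := hi)
  generalize (W.findIdx fun a => a.1 == v) = i at hi hp
  rw [List.rotate_eq_drop_append_take hi.le]
  rw [← List.take_append_drop i W] at h
  obtain ⟨z, h1, h2⟩ := path_append.1 h
  have hz : z = v := by
    rw [List.drop_eq_getElem_cons hi, path_cons] at h2
    rw [← h2.1]
    simpa using hp
  subst hz
  exact path_append.2 ⟨x, h2, h1⟩

theorem Bal.perm {L L' : List Arc} (h : Bal L) (hp : L.Perm L') : Bal L' :=
  (hp.map _).symm.trans (List.Perm.trans h (hp.map _))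

theorem Bal.append {L L' : List Arc} (h : Bal L) (h' : Bal L') : Bal (L ++ L') := by
  unfold Bal
  rw [List.map_append, List.map_append]
  exact List.Perm.append h h'

theorem Bal.cancel {L L' : List Arc} (h : Bal (L ++ L')) (h' : Bal L) : Bal L' := by
  unfold Bal at h
  rw [List.map_append, List.map_append] at h
  exact (List.perm_append_left_iff _).1 ((List.Perm.append_right _ h').symm.trans h)

theorem Path.closed {x y : Str} {W E : List Arc} (h : Path x W y) (hb : Bal (W ++ E))
    (hy : y ∉ E.map Prod.fst) : y = x := by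
  by_contra hne
  have h1 := congrArg (List.count y) h
  have h2 := hb.count_eq y
  rw [List.map_append, List.map_append, List.count_append, List.count_append,
    List.count_eq_zero_of_not_mem hy] at h2
  rw [List.count_append, List.count_singleton_self, List.count_cons_of_ne (Ne.symm hne)] at h1
  omega

/-! ### Hierholzer's procedure -/

/-- a walk and a list of unused arcs, balanced together -/
def Good (st : List Arc × List Arc) : Prop :=
  st.1 ≠ [] ∧ (∃ x y, Path x st.1 y) ∧ Bal (st.1 ++ st.2)

/-- the walk is closed and no unused arc starts on it -/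
def Sat (st : List Arc × List Arc) : Prop :=
  (∃ x, Path x st.1 x) ∧ ∀ e ∈ st.2, e.1 ∉ st.1.map Prod.fst

/-- some unused arcs have been moved to the walk -/
def Mov (st st' : List Arc × List Arc) : Prop :=
  ∃ M : List Arc, st'.1.Perm (st.1 ++ M) ∧ st.2.Perm (M ++ st'.2)

theorem Mov.refl (st : List Arc × List Arc) : Mov st st := ⟨[], by simp, by simp⟩

theorem Mov.trans {a b c : List Arc × List Arc} (h : Mov a b) (h' : Mov b c) : Mov a c := by
  obtain ⟨M, h1, h2⟩ := h
  obtain ⟨M', h3, h4⟩ := h'
  refine ⟨M ++ M', ?_, ?_⟩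
  · rw [← List.append_assoc]
    exact h3.trans (h1.append_right _)
  · rw [List.append_assoc]
    exact h2.trans (h4.append_left _)

theorem Mov.perm {a b : List Arc × List Arc} (h : Mov a b) : (a.1 ++ a.2).Perm (b.1 ++ b.2) := by
  obtain ⟨M, h1, h2⟩ := h
  refine (h2.append_left _).trans ?_
  rw [← List.append_assoc]
  exact h1.symm.append_right _

theorem astep_spec {st : List Arc × List Arc} (h : Good st) :
    (Good (astep st) ∧ Mov st (astep st) ∧ (astep st).2.length + 1 = st.2.length) ∨
      (Sat st ∧ astep st = st) := by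
  obtain ⟨W, E⟩ := st
  obtain ⟨hW, ⟨x, y, hp⟩, hb⟩ := h
  have hl := hp.lastV hW
  have key : ∀ (W' : List Arc) (e : Arc) (z : Str), W'.Perm W → e ∈ E → Path z W' e.1 →
      Good (W' ++ [e], E.erase e) ∧ Mov (W, E) (W' ++ [e], E.erase e) ∧
        (E.erase e).length + 1 = E.length := by
    intro W' e z h1 h2 h3
    have hm : Mov (W, E) (W' ++ [e], E.erase e) :=
      ⟨[e], h1.append_right _, List.perm_cons_erase h2⟩
    refine ⟨⟨by simp, ⟨z, e.2, path_append.2 ⟨_, h3, ?_⟩⟩, hb.perm hm.perm⟩, hm, ?_⟩
    · rw [path_cons, path_nil]; exact ⟨rfl, rfl⟩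
    · have := (List.perm_cons_erase h2).length_eq
      simpa using this.symm
  dsimp only at hW hp hb hl
  cases h1 : E.find? fun e => e.1 == lastV W with
  | some e =>
    left
    have he : astep (W, E) = (W ++ [e], E.erase e) := by delta astep; simp [h1]
    rw [he]
    have h2 : e.1 = y := by rw [← hl]; simpa using List.find?_some h1
    exact key W e x (List.Perm.refl _) (List.mem_of_find?_eq_some h1) (h2 ▸ hp)
  | none =>
    have hxy : y = x := by
      refine hp.closed hb fun hy => ?_
      obtain ⟨e, he, he'⟩ := List.mem_map.1 hy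
      exact List.find?_eq_none.1 h1 e he (by simp [he', hl])
    subst hxy
    cases h2 : E.find? fun e => W.any fun a => a.1 == e.1 with
    | some e =>
      left
      have he : astep (W, E) =
          (W.rotate (W.findIdx fun a => a.1 == e.1) ++ [e], E.erase e) := by
        delta astep; simp [h1, h2]
      rw [he]
      refine key _ e e.1 (List.rotate_perm _ _) (List.mem_of_find?_eq_some h2) (hp.rotate ?_)
      simpa using List.find?_some h2
    | none =>
      right
      refine ⟨⟨⟨y, hp⟩, fun e he h3 => ?_⟩, by delta astep; simp [h1, h2]⟩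
      exact List.find?_eq_none.1 h2 e he (by simpa using h3)

theorem iter_spec (k : ℕ) {st : List Arc × List Arc} (h : Good st) (hk : st.2.length ≤ k) :
    Good (astep^[k] st) ∧ Sat (astep^[k] st) ∧ Mov st (astep^[k] st) := by
  induction k generalizing st with
  | zero =>
    rcases astep_spec h with ⟨-, -, h1⟩ | ⟨h1, -⟩
    · omega
    · exact ⟨h, h1, Mov.refl _⟩
  | succ k ih =>
    rcases astep_spec h with ⟨h1, h2, h3⟩ | ⟨h1, h2⟩
    · obtain ⟨h4, h5, h6⟩ := ih h1 (by omega)
      exact ⟨h4, h5, h2.trans h6⟩
    · rw [Function.iterate_fixed h2]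
      exact ⟨h, h1, Mov.refl _⟩

theorem absorb_spec {st : List Arc × List Arc} (h : Good st) :
    Good (absorb st) ∧ Sat (absorb st) ∧ Mov st (absorb st) := iter_spec _ h le_rfl

theorem closed_of_sat {st : List Arc × List Arc} (h : Good st) (h' : Sat st) :
    ∀ e ∈ st.1 ++ st.2, (e.1 ∈ st.1.map Prod.fst ↔ e.2 ∈ st.1.map Prod.fst) := by
  obtain ⟨⟨x, hx⟩, hs⟩ := h'
  have h1 := hx.bal
  have h2 := h.2.2.cancel h1
  intro e he
  rcases List.mem_append.1 he with he | he
  · exact iff_of_true (List.mem_map_of_mem he) (h1.mem_iff.2 (List.mem_map_of_mem he))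
  · refine iff_of_false (hs e he) ?_
    obtain ⟨e', he', h3⟩ := List.mem_map.1 (h2.mem_iff.2 (List.mem_map_of_mem he))
    exact h3 ▸ hs e' he'

theorem Mov.sub {a b : List Arc × List Arc} (h : Mov a b) {e : Arc} (he : e ∈ a.1) : e ∈ b.1 := by
  obtain ⟨M, h1, -⟩ := h
  exact h1.mem_iff.2 (List.mem_append_left _ he)

theorem Mov.subV {a b : List Arc × List Arc} (h : Mov a b) {v : Str}
    (hv : v ∈ a.1.map Prod.fst) : v ∈ b.1.map Prod.fst := by
  obtain ⟨e, he, rfl⟩ := List.mem_map.1 hv
  exact List.mem_map_of_mem (h.sub he)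

theorem Mov.filter {a b : List Arc × List Arc} (h : Mov a b) (hs : Sat b) :
    b.2.Perm (a.2.filter fun e => decide (e.1 ∉ b.1.map Prod.fst)) := by
  obtain ⟨M, h1, h2⟩ := h
  refine List.Perm.trans (List.Perm.of_eq ?_) (h2.filter _).symm
  rw [List.filter_append, List.filter_eq_nil_iff.2, List.filter_eq_self.2, List.nil_append]
  · exact fun e he => decide_eq_true (hs.2 e he)
  · intro e he
    rw [decide_eq_true_eq, not_not]
    exact List.mem_map_of_mem (h1.mem_iff.2 (List.mem_append_right _ he))

theorem cost_append (L L' : List Arc) : cost (L ++ L') = cost L + cost L' := List.countP_append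

theorem cost_perm {L L' : List Arc} (h : L.Perm L') : cost L = cost L' := h.countP_eq _

theorem Mov.cost {a b : List Arc × List Arc} (h : Mov a b) :
    cost a.1 + cost a.2 = cost b.1 + cost b.2 := by
  rw [← cost_append, ← cost_append, cost_perm h.perm]

theorem Mov.cost_le {a b : List Arc × List Arc} (h : Mov a b) : R287.cost b.2 ≤ R287.cost a.2 := by
  obtain ⟨M, -, h2⟩ := h
  rw [cost_perm h2, cost_append]
  omega

/-! ### The loops -/

theorem path_range (f : ℕ → Str) (m : ℕ) :
    Path (f 0) ((List.range m).map fun i => (f i, f (i + 1))) (f m) := by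
  induction m with
  | zero => simp [path_nil]
  | succ m ih =>
    rw [List.range_succ, List.map_append]
    exact path_append.2 ⟨_, ih, by simp [path_cons, path_nil]⟩

theorem range_closed (f : ℕ → Str) (m : ℕ) (R : List Str)
    (h : ∀ i < m, (f i ∈ R ↔ f (i + 1) ∈ R)) : ∀ i ≤ m, (f i ∈ R ↔ f 0 ∈ R) := by
  intro i hi
  induction i with
  | zero => rfl
  | succ i ih => rw [← h i hi, ih (by omega)]

theorem bal_opArcs {Z : Str} {k : ℕ} (hk : k < Z.length)
    (hb : Z.take k = Z.drop (Z.length - k)) : Bal (opArcs Z k) := by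
  have h1 := path_range (fun i => Z.take (k + i)) (Z.length - k)
  have h2 := path_range (fun i => Z.drop i) (Z.length - k)
  rw [Nat.add_sub_cancel' hk.le, List.take_length] at h1
  rw [← hb, List.drop_zero] at h2
  exact (path_append.2 ⟨_, h1, h2⟩).bal

theorem cost_opArcs (Z : Str) (k : ℕ) : cost (opArcs Z k) = Z.length - k := by
  delta opArcs
  rw [cost_append]
  delta cost
  rw [List.countP_eq_zero.2, List.countP_eq_length.2]
  · simp
  · intro e he
    obtain ⟨i, hi, rfl⟩ := List.mem_map.1 he
    have := List.mem_range.1 hi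
    simp only [List.length_drop, decide_eq_true_eq]
    omega
  · intro e he
    obtain ⟨i, hi, rfl⟩ := List.mem_map.1 he
    simp only [List.length_take, decide_eq_true_eq]
    omega

theorem lv_of_mem {Z : Str} {k : ℕ} {e : Arc} (he : e ∈ opArcs Z k) : LV Z k e.1 := by
  rcases List.mem_append.1 he with he | he
  · obtain ⟨i, hi, rfl⟩ := List.mem_map.1 he
    have := List.mem_range.1 hi
    exact ⟨by simp only [List.length_take]; omega, Or.inl (List.take_prefix _ _)⟩
  · obtain ⟨i, hi, rfl⟩ := List.mem_map.1 he
    have := List.mem_range.1 hi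
    exact ⟨by simp only [List.length_drop]; omega, Or.inr (List.drop_suffix _ _)⟩

theorem lv_iff {Z : Str} {k : ℕ} {R : List Str}
    (h : ∀ e ∈ opArcs Z k, (e.1 ∈ R ↔ e.2 ∈ R)) {v : Str} (hv : LV Z k v) : v ∈ R ↔ Z ∈ R := by
  obtain ⟨hk, hv | hv⟩ := hv
  · have hl := hv.length_le
    have h1 := range_closed (fun i => Z.take (k + i)) (Z.length - k) R fun i hi =>
      h _ (List.mem_append_left _ (List.mem_map.2 ⟨i, List.mem_range.2 hi, rfl⟩))
    have h2 := h1 (v.length - k) (by omega)
    have h3 := h1 (Z.length - k) le_rfl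
    rw [Nat.add_sub_cancel' hk, ← List.prefix_iff_eq_take.1 hv] at h2
    rw [Nat.add_sub_cancel' (hk.trans hl), List.take_length] at h3
    exact h2.trans h3.symm
  · have h1 := range_closed (fun i => Z.drop i) (Z.length - k) R fun i hi =>
      h _ (List.mem_append_right _ (List.mem_map.2 ⟨i, List.mem_range.2 hi, rfl⟩))
    have h2 := h1 (Z.length - v.length) (by omega)
    rwa [← List.suffix_iff_eq_drop.1 hv, List.drop_zero] at h2

/-- down arcs and up arcs -/
def UD (e : Arc) : Prop := e.2 = e.1.tail ∨ (e.2 ≠ [] ∧ e.1 = e.2.dropLast)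

theorem ud_opArcs {Z : Str} {k : ℕ} {e : Arc} (he : e ∈ opArcs Z k) : UD e := by
  rcases List.mem_append.1 he with he | he
  · obtain ⟨i, hi, rfl⟩ := List.mem_map.1 he
    have := List.mem_range.1 hi
    refine Or.inr ⟨?_, ?_⟩
    · rw [← List.length_pos_iff, List.length_take]
      omega
    · dsimp only
      rw [List.dropLast_eq_take, List.take_take, List.length_take]
      congr 1
      omega
  · obtain ⟨i, hi, rfl⟩ := List.mem_map.1 he
    exact Or.inl (List.tail_drop).symm

theorem ud_base {S : List Str} {e : Arc} (he : e ∈ base S) : UD e := by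
  obtain ⟨s, hs, he⟩ := List.mem_flatMap.1 he
  rcases List.mem_append.1 he with he | he
  · rw [List.eq_of_mem_replicate he]
    refine Or.inr ⟨?_, rfl⟩
    simpa using (List.mem_filter.1 hs).2
  · rw [List.eq_of_mem_replicate he]
    exact Or.inl rfl

/-! ### The main loop -/

/-- the invariant of the main loop -/
structure Inv (S : List Str) (st : List Arc × List Arc) : Prop where
  good : Good st
  sat : Sat st
  root : ([] : Str) ∈ st.1.map Prod.fst
  ud : ∀ e ∈ st.1 ++ st.2, UD e
  rest : st.2.Perm ((base S).filter fun e => decide (e.1 ∉ st.1.map Prod.fst))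
  closed : ClosedB S (st.1.map Prod.fst)
  bound : cost st.1 + 2 * cost st.2 ≤ 2 * cost (base S)

theorem inv_init (hB : BalStmt) (S : List Str) : Inv S (absorb ([([], [])], base S)) := by
  have hp : Path [] [(([], []) : Arc)] [] := by simp [path_cons, path_nil]
  obtain ⟨h1, h2, h3⟩ := absorb_spec (st := ([([], [])], base S))
    ⟨by simp, ⟨_, _, hp⟩, hp.bal.append (hB S)⟩
  refine ⟨h1, h2, h3.subV (by simp), fun e he => ?_, h3.filter h2, fun e he => ?_, ?_⟩
  · rcases List.mem_append.1 (h3.perm.mem_iff.2 he) with he | he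
    · rw [List.mem_singleton.1 he]; exact Or.inl rfl
    · exact ud_base he
  · exact closed_of_sat h1 h2 e (h3.perm.mem_iff.1 (List.mem_append_right _ he))
  · have h4 := h3.cost
    have h5 := h3.cost_le
    have h6 : cost [(([], []) : Arc)] = 0 := rfl
    dsimp only at h4 h5
    omega

theorem try_spec {S : List Str} {st : List Arc × List Arc} (h : Inv S st) {op : Str × ℕ}
    (hk : op.2 < op.1.length) (hb : op.1.take op.2 = op.1.drop (op.1.length - op.2)) :
    Good (tryOp st op) ∧ Sat (tryOp st op) ∧
      Mov (st.1, opArcs op.1 op.2 ++ st.2) (tryOp st op) ∧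
      ClosedB S ((tryOp st op).1.map Prod.fst) ∧
      ((∀ e ∈ opArcs op.1 op.2, e.1 ∈ (tryOp st op).1.map Prod.fst) →
        (tryOp st op).2.Perm
          ((base S).filter fun e => decide (e.1 ∉ (tryOp st op).1.map Prod.fst))) := by
  obtain ⟨h1, h2, h3⟩ : Good (tryOp st op) ∧ Sat (tryOp st op) ∧
      Mov (st.1, opArcs op.1 op.2 ++ st.2) (tryOp st op) := by
    refine absorb_spec ⟨h.good.1, h.good.2.1, ((bal_opArcs hk hb).append h.good.2.2).perm ?_⟩
    exact (List.perm_append_comm_assoc _ _ _)
  refine ⟨h1, h2, h3, fun e he => ?_, fun hO => ?_⟩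
  · by_cases h4 : e.1 ∈ st.1.map Prod.fst
    · exact iff_of_true (h3.subV h4) (h3.subV ((h.closed e he).1 h4))
    · refine closed_of_sat h1 h2 e (h3.perm.mem_iff.1 ?_)
      exact List.mem_append_right _ (List.mem_append_right _
        (h.rest.mem_iff.2 (List.mem_filter.2 ⟨he, decide_eq_true h4⟩)))
  · refine (h3.filter h2).trans ?_
    dsimp only
    rw [List.filter_append, List.filter_eq_nil_iff.2, List.nil_append]
    · refine (h.rest.filter _).trans (List.Perm.of_eq ?_)
      rw [List.filter_filter]
      refine List.filter_congr fun e _ => ?_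
      by_cases h4 : e.1 ∈ (tryOp st op).1.map Prod.fst
      · simp only [h4, not_true_eq_false, decide_false, Bool.false_and]
      · have h5 : e.1 ∉ st.1.map Prod.fst := fun h5 => h4 (h3.subV h5)
        simp only [h4, h5, not_false_eq_true, decide_true, Bool.and_self]
    · intro e he
      rw [decide_eq_true_eq, not_not]
      exact hO e he

theorem okOp_iff {st : List Arc × List Arc} {op : Str × ℕ} : okOp st op = true ↔
    op.2 < op.1.length ∧ op.1.take op.2 = op.1.drop (op.1.length - op.2) ∧
      (∀ e ∈ opArcs op.1 op.2, e.1 ∈ (tryOp st op).1.map Prod.fst) ∧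
      op.1.length - op.2 + cost (tryOp st op).2 ≤ cost st.2 := by
  delta okOp
  simp only [Bool.and_eq_true, decide_eq_true_eq, List.all_eq_true, List.any_eq_true,
    beq_iff_eq, List.mem_map, and_assoc]

theorem inv_try {S : List Str} {st : List Arc × List Arc} (h : Inv S st) {op : Str × ℕ}
    (ho : okOp st op = true) : Inv S (tryOp st op) ∧ cost (tryOp st op).2 < cost st.2 := by
  obtain ⟨hk, hb, hO, hc⟩ := okOp_iff.1 ho
  obtain ⟨h1, h2, h3, h4, h5⟩ := try_spec h hk hb
  refine ⟨⟨h1, h2, h3.subV h.root, fun e he => ?_, h5 hO, h4, ?_⟩, by omega⟩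
  · rcases List.mem_append.1 (h3.perm.mem_iff.2 he) with he | he
    · exact h.ud e (List.mem_append_left _ he)
    · rcases List.mem_append.1 he with he | he
      · exact ud_opArcs he
      · exact h.ud e (List.mem_append_right _ he)
  · have h6 := h3.cost
    have h7 := h.bound
    dsimp only at h6
    rw [cost_append, cost_opArcs] at h6
    omega

theorem loop_spec {S : List Str} (F : List (Str × ℕ)) (k : ℕ) {st : List Arc × List Arc}
    (h : Inv S st) (hk : cost st.2 < k) :
    Inv S ((ostep F)^[k] st) ∧ ∀ op ∈ F, ¬ okOp ((ostep F)^[k] st) op = true := by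
  induction k generalizing st with
  | zero => omega
  | succ k ih =>
    cases h1 : F.find? (okOp st) with
    | some op =>
      have he : ostep F st = tryOp st op := by delta ostep; simp [h1]
      obtain ⟨h2, h3⟩ := inv_try h (List.find?_some h1)
      rw [Function.iterate_succ_apply, he]
      exact ih h2 (by omega)
    | none =>
      have he : ostep F st = st := by delta ostep; simp [h1]
      rw [Function.iterate_fixed he]
      exact ⟨h, List.find?_eq_none.1 h1⟩

theorem countP_split (L : List Arc) (R R' : List Str) (h : ∀ v ∈ R, v ∈ R') :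
    cost (L.filter fun e => decide (e.1 ∉ R)) = cost (L.filter fun e => decide (e.1 ∉ R')) +
      L.countP fun e => decide (e.2.length < e.1.length ∧ e.1 ∈ R' ∧ e.1 ∉ R) := by
  delta cost
  rw [List.countP_filter, List.countP_filter]
  induction L with
  | nil => rfl
  | cons e L ih =>
    simp only [List.countP_cons, ih]
    by_cases h1 : e.2.length < e.1.length <;> by_cases h2 : e.1 ∈ R <;> by_cases h3 : e.1 ∈ R' <;>
      first
      | exact absurd (h _ h2) h3
      | (simp [h1, h2, h3]; done)
      | (simp [h1, h2, h3]; omega)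

theorem mem_of_final (hN : ConnStmt) {S : List Str} {st : List Arc × List Arc} (h : Inv S st)
    (hf : ∀ op ∈ fam S, ¬ okOp st op = true) {s : Str} (hs : s ∈ subL S)
    (hmax : ∀ r ∈ subL S, s <:+: r → r = s) : s ∈ st.1.map Prod.fst := by
  by_contra hn
  obtain ⟨op, hop, hk, hb, ⟨v, hv, hv'⟩, hc⟩ := hN S _ h.root h.closed s hs hmax hn
  obtain ⟨h1, h2, h3, h4, h5⟩ := try_spec h hk hb
  have hcl : ∀ e ∈ opArcs op.1 op.2,
      (e.1 ∈ (tryOp st op).1.map Prod.fst ↔ e.2 ∈ (tryOp st op).1.map Prod.fst) := fun e he =>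
    closed_of_sat h1 h2 e (h3.perm.mem_iff.1
      (List.mem_append_right _ (List.mem_append_left _ he)))
  have hall : ∀ w, LV op.1 op.2 w → w ∈ (tryOp st op).1.map Prod.fst := fun w hw =>
    (lv_iff hcl hw).2 ((lv_iff hcl hv').1 (h3.subV hv))
  have hO : ∀ e ∈ opArcs op.1 op.2, e.1 ∈ (tryOp st op).1.map Prod.fst :=
    fun e he => hall _ (lv_of_mem he)
  refine hf op hop (okOp_iff.2 ⟨hk, hb, hO, ?_⟩)
  have h6 := hc _ h4 (fun _ => h3.subV) hall
  rw [cost_perm h.rest, cost_perm (h5 hO),
    countP_split _ (st.1.map Prod.fst) _ fun _ => h3.subV]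
  omega

/-! ### Spelling -/

theorem spell_cons (a : Arc) (W : List Arc) :
    spell (a :: W) = (if a.2.length < a.1.length then a.1.take 1 else []) ++ spell W :=
  List.flatMap_cons

theorem length_spell (W : List Arc) : (spell W).length = cost W := by
  induction W with
  | nil => rfl
  | cons a W ih =>
    rw [spell_cons, List.length_append, ih]
    delta cost
    rw [List.countP_cons]
    by_cases h : a.2.length < a.1.length
    · simp only [h, if_true, decide_true, List.length_take]
      omega
    · simp [h]

theorem prefix_spell {W : List Arc} {x : Str} (h : Path x W []) (hu : ∀ e ∈ W, UD e) :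
    x <+: spell W := by
  induction W generalizing x with
  | nil => rw [← path_nil.1 h]; exact List.nil_prefix
  | cons a W ih =>
    obtain ⟨rfl, h2⟩ := path_cons.1 h
    have h3 := ih h2 fun e he => hu e (List.mem_cons_of_mem _ he)
    obtain ⟨u, v⟩ := a
    rw [spell_cons]
    rcases hu _ List.mem_cons_self with h4 | ⟨h4, h5⟩
    · dsimp only at h4 h3 ⊢
      subst h4
      cases u with
      | nil => exact List.nil_prefix
      | cons c u => simpa using h3
    · dsimp only at h4 h5 h3 ⊢
      subst h5
      rw [if_neg (by simp), List.nil_append]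
      exact (List.dropLast_prefix v).trans h3

theorem infix_spell {W : List Arc} {x : Str} (h : Path x W []) (hu : ∀ e ∈ W, UD e) :
    ∀ e ∈ W, e.1 <:+: spell W := by
  induction W generalizing x with
  | nil => simp
  | cons a W ih =>
    intro e he
    rcases List.mem_cons.1 he with rfl | he
    · have := prefix_spell h hu
      rw [← (path_cons.1 h).1] at this
      exact this.isInfix
    · rw [spell_cons]
      exact (ih (path_cons.1 h).2 (fun e he => hu e (List.mem_cons_of_mem _ he)) e he).trans
        (List.suffix_append _ _).isInfix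

theorem mem_subL {S : List Str} {s : Str} (hs : s ∈ S) (h : s ≠ []) : s ∈ subL S := by
  refine List.mem_filter.2 ⟨List.mem_dedup.2 (List.mem_flatMap.2 ⟨s, hs, ?_⟩), by simpa using h⟩
  exact List.mem_flatMap.2 ⟨s, (List.mem_tails _ _).2 List.suffix_rfl,
    (List.mem_inits _ _).2 List.prefix_rfl⟩

theorem exists_max (L : List Str) {s : Str} (hs : s ∈ L) :
    ∃ r ∈ L, s <:+: r ∧ ∀ r' ∈ L, r <:+: r' → r' = r := by
  obtain ⟨r, ⟨h1, h2⟩, h3⟩ := Set.exists_max_image {r | r ∈ L ∧ s <:+: r} List.length
    ((List.finite_toSet L).subset fun _ h => h.1) ⟨s, hs, List.infix_rfl⟩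
  exact ⟨r, h1, h2, fun r' h4 h5 =>
    (h5.eq_of_length (le_antisymm h5.length_le (h3 r' ⟨h4, h2.trans h5⟩))).symm⟩

/-- Equation lemmas are realised here once and for all. -/
theorem anchor_Euler : True := by
  have := @Path.eq_1; have := @Bal.eq_1; have := @Good.eq_1; have := @Sat.eq_1
  have := @Mov.eq_1; have := @UD.eq_1
  trivial

end Euler

open Euler in
theorem algStmt_of (hB : BalStmt) (hC : CostStmt) (hN : ConnStmt) : AlgStmt := by
  intro S
  have h0 := inv_init hB S
  have hc : cost (absorb ([([], [])], base S)).2 < S.flatten.length + 1 := by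
    have h1 := h0.bound
    have h2 := hC S S.flatten fun s hs => List.infix_of_mem_flatten hs
    omega
  obtain ⟨h, hf⟩ := loop_spec (fam S) _ h0 hc
  obtain ⟨x, hx⟩ := h.sat.1
  have hp := hx.rotate h.root
  have hperm := List.rotate_perm (finalWalk S) ((finalWalk S).findIdx fun a => a.1 == [])
  have hin := infix_spell hp fun e he => h.ud e (List.mem_append_left _ (hperm.mem_iff.1 he))
  refine ⟨fun s hs => ?_, fun T hT => ?_⟩
  · rcases eq_or_ne s [] with rfl | hne
    · exact List.nil_infix
    · obtain ⟨r, h1, h2, h3⟩ := exists_max _ (mem_subL hs hne)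
      obtain ⟨e, he, rfl⟩ := List.mem_map.1 (mem_of_final hN h hf h1 h3)
      exact h2.trans (hin e (hperm.mem_iff.2 he))
  · have h1 := h.bound
    have h2 := hC S T hT
    delta alg
    rw [length_spell, cost_perm hperm]
    delta finalWalk
    omega

end Crest.Agent.R287
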