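import Crest.Agent.R287.Orbit

/-!
# Firing the run rule at a vertex of a layer
-/

namespace Crest.Agent.R287

open Finset

namespace Pre

variable {Tok : Type} [Fintype Tok] (P : Pre Tok)

/-- The run rule holds for the occurrence counts of `P`. -/
def RuleOK (S : List Str) : Prop := ∀ s ∈ subL S, ∀ w ∈ subL S, rule S P.cnt s w ≤ P.cnt s

variable {P} {S : List Str}

theorem fire₀ (hsub : ∀ z, P.top z ∈ subL S) (hr : P.RuleOK S) (z : Tok) {τ p : ℕ} (hτ : 0 < τ)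
    (hp : 0 < p) (hA : Per (P.txt z) p) (hl : τ + p ≤ P.len z) :
    ∃ y, seg (P.txt z) 0 τ <+: P.top y ∧ ¬ seg (P.txt z) 0 (τ + p : ℕ) <+: P.top y ∧
      ¬ P.Blocked S (P.txt z) (qT τ (τ + p)) y := by
  classical
  set A := P.txt z with hAz
  have hw : seg A 0 (τ + p : ℕ) <+: P.top z := seg_prefix (by omega)
  have hs : seg A 0 τ <+: P.top z := seg_prefix (by omega)
  have h := hr _ (subL_infix (hsub z) hs.isInfix (seg_ne_nil (by omega))) _
    (subL_infix (hsub z) hw.isInfix (seg_ne_nil (by omega)))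
  have l1 : (seg A 0 τ).length = τ := by simp
  have l2 : (seg A 0 (τ + p : ℕ)).length = τ + p := by rw [length_seg]; omega
  have e : per (seg A 0 (τ + p : ℕ)) p = A := per_seg hp hA (by omega)
  have hlt : bsum S P.cnt A (qW (τ + p)) < P.cnt (seg A 0 (τ + p : ℕ)) := by
    rw [bsum_cnt]
    refine card_lt_card ⟨fun y hy => ?_, fun hc => ?_⟩
    · rw [mem_occ]
      exact Blocked.prefix P (by omega) (mem_filter.1 hy).2 fun b hb => by
        simpa only [qW, decide_eq_true_eq] using hb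
    · obtain ⟨a, b, h1, -⟩ := (mem_filter.1 (hc (P.mem_occ.2 hw))).2
      exact h1.2.2.1 rfl
  rw [rule, l1, l2, Nat.add_sub_cancel_left, e, if_pos] at h
  · have hsp := P.cnt_split S A hτ (Nat.le_add_right τ p)
    change _ + bsum S P.cnt A (qT τ (τ + p)) + 1 ≤ _ at h
    obtain ⟨y, hy⟩ := card_pos.1 (show 0 < (univ.filter fun y => seg A 0 τ <+: P.top y ∧
      ¬ seg A 0 (τ + p : ℕ) <+: P.top y ∧ ¬ P.Blocked S A (qT τ (τ + p)) y).card by omega)
    exact ⟨y, (mem_filter.1 hy).2⟩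
  · refine ⟨by omega, ?_, ?_, hlt⟩
    · rw [seg_take (by omega), zero_add]
    · rw [seg_drop, ← hA.seg 0 τ]; congr 1

theorem fire₁ (hsub : ∀ z, P.top z ∈ subL S) (hr : P.RuleOK S) (z : Tok) {i j : ℤ}
    (h1 : i + P.pd z < j) (h2 : j ≤ P.G z i) :
    ∃ y, (∀ n, i ≤ n → n < j - P.pd z → P.txt y n = P.txt z n) ∧ j - P.pd z ≤ P.G y i ∧
      ¬ (j ≤ P.G y i ∧ ∀ n, i ≤ n → n < j → P.txt y n = P.txt z n) ∧
      ∀ a b, a < i → j - P.pd z ≤ b → b < j → P.txt y a ≠ P.txt z a → P.txt y b ≠ P.txt z b →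
        (∀ n, a < n → n < b → P.txt y n = P.txt z n) → P.G y a ≤ b := by
  have hp := P.pd_pos z
  obtain ⟨y, g1, g2, g3⟩ := fire₀ hsub hr (P.sh i z) (τ := (j - P.pd z - i).toNat) (p := P.pd z)
    (by omega) hp (by rw [← P.pd_sh i z]; exact P.per_txt _) (by simp only [G] at h2; omega)
  rw [P.prefix_top _ (by omega)] at g1 g2
  obtain ⟨y', ey⟩ : ∃ y', y = P.sh i y' := ⟨P.sh (-i) y, by rw [← sh_add]; simp⟩
  have el : (P.len y : ℤ) = P.G y' i - i := by rw [G, ← ey]; ring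
  refine ⟨y', fun n a1 a2 => ?_, by omega, fun hc => g2 ⟨by omega, fun n a1 a2 => ?_⟩,
    fun a b a1 a2 a3 a4 a5 a6 => ?_⟩
  · have := g1.2 (n - i) (by omega) (by omega)
    rwa [ey, txt_sh, txt_sh, sub_add_cancel] at this
  · rw [ey, txt_sh, txt_sh]
    exact hc.2 _ (by omega) (by omega)
  · by_contra hc
    refine g3 ⟨a - i, b - i, ⟨by omega, by omega, ?_, ?_, fun n b1 b2 => ?_⟩, ?_, ?_, ?_⟩
    · rwa [ey, txt_sh, txt_sh, sub_add_cancel]
    · rwa [ey, txt_sh, txt_sh, sub_add_cancel]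
    · rw [ey, txt_sh, txt_sh]; exact a6 _ (by omega) (by omega)
    · simp only [qT, Bool.and_eq_true, decide_eq_true_eq]; omega
    · rw [ey, G_sh, sub_add_cancel]; omega
    · rw [ey, seg_sh]
      refine subL_infix (hsub (P.sh a y')) ?_ (seg_ne_nil (by omega))
      rw [top_sh, sub_add_cancel]
      exact (seg_prefix (by omega)).isInfix

/-- Distinct texts disagree arbitrarily far on both sides. -/
theorem exists_run {y z : Tok} (h : P.txt y ≠ P.txt z) {i c : ℤ}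
    (ha : ∀ n, i ≤ n → n < c → P.txt y n = P.txt z n) :
    ∃ α β, α ≤ i ∧ c ≤ β ∧ (∀ n, α ≤ n → n < β → P.txt y n = P.txt z n) ∧
      P.txt y (α - 1) ≠ P.txt z (α - 1) ∧ P.txt y β ≠ P.txt z β := by
  have hy := P.pd_pos y
  have hz := P.pd_pos z
  have key : ∀ a : ℤ, ∃ n, a ≤ n ∧ n < a + P.pd y + P.pd z ∧ P.txt y n ≠ P.txt z n := by
    intro a
    by_contra hc
    push Not at hc
    exact h (eq_of_agree₂ (by omega) (by omega) (P.per_txt y) (P.per_txt z) le_rfl hc)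
  obtain ⟨β, ⟨b1, b2⟩, b3⟩ := Int.exists_least_of_bdd
    (P := fun n => c ≤ n ∧ P.txt y n ≠ P.txt z n) ⟨c, fun _ h => h.1⟩
    (let ⟨n, h1, _, h3⟩ := key c; ⟨n, h1, h3⟩)
  obtain ⟨a, ⟨a1, a2⟩, a3⟩ := Int.exists_greatest_of_bdd
    (P := fun n => n < i ∧ P.txt y n ≠ P.txt z n) ⟨i, fun _ h => h.1.le⟩
    (let ⟨n, _, h2, h3⟩ := key (i - P.pd y - P.pd z); ⟨n, by omega, h3⟩)
  refine ⟨a + 1, β, by omega, b1, fun n h1 h2 => ?_, by rwa [add_sub_cancel_right], b2⟩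
  by_contra hc
  by_cases c1 : n < i
  · have := a3 n ⟨c1, hc⟩; omega
  by_cases c2 : c ≤ n
  · have := b3 n ⟨c2, hc⟩; omega
  exact hc (ha n (by omega) (by omega))

/-- A vertex `(x, v)` of `y` inside `[α, β]` that is not far below the staircase of `z`. -/
def NotLow (P : Pre Tok) (z y : Tok) (α β : ℤ) : Prop :=
  ∃ x v, α ≤ x ∧ v ≤ β ∧ P.G y (x - 1) ≤ v ∧ v ≤ P.G y x ∧ P.G z (x - 1) - P.pd z ≤ v

/-- A vertex `(x, v)` of `y` inside `[α, β]` within one period of the staircase of `z`. -/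
def Band (P : Pre Tok) (z y : Tok) (α β : ℤ) : Prop :=
  ∃ x v, α ≤ x ∧ v ≤ β ∧ P.G y (x - 1) ≤ v ∧ v ≤ P.G y x ∧ P.G z (x - 1) - P.pd z ≤ v ∧
    v ≤ P.G z x + P.pd z

omit [Fintype Tok] in
theorem NotLow.band {z y : Tok} {α β : ℤ} (h : P.NotLow z y α β)
    (hf : P.G y (α - 1) ≤ P.G z α + P.pd z) : P.Band z y α β := by
  obtain ⟨x, v, h1, h⟩ := h
  induction x, h1 using Int.leInduction generalizing v with
  | base =>
    have := P.G_mono z (show α - 1 ≤ α by omega)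
    exact ⟨α, max (P.G y (α - 1)) (P.G z (α - 1) - P.pd z), by omega⟩
  | succ x hx ih =>
    rw [add_sub_cancel_right] at h
    have h1 := P.G_mono z (show x ≤ x + 1 by omega)
    have h2 := P.G_mono z (show x - 1 ≤ x by omega)
    have h3 := P.G_mono y (show x - 1 ≤ x by omega)
    by_cases hc : P.G y x ≤ P.G z (x + 1) + P.pd z
    · exact ⟨x + 1, max (P.G y x) (P.G z x - P.pd z), by rw [add_sub_cancel_right]; omega⟩
    · exact ih (P.G y x) (by omega)

theorem fire₂ (hsub : ∀ z, P.top z ∈ subL S) (hr : P.RuleOK S) (z : Tok) {i j : ℤ}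
    (h0 : P.G z (i - 1) ≤ j) (h1 : i + P.pd z < j) (h2 : j ≤ P.G z i) :
    (∃ y, P.txt y = P.txt z ∧ j - P.pd z ≤ P.G y i ∧ P.G y i < j) ∨
    ∃ y α β, α ≤ i ∧ j - P.pd z ≤ β ∧ (∀ n, α ≤ n → n < β → P.txt y n = P.txt z n) ∧
      P.txt y (α - 1) ≠ P.txt z (α - 1) ∧ P.G y (α - 1) ≤ β ∧ P.NotLow z y α β := by
  obtain ⟨y, g1, g2, g3, g4⟩ := fire₁ hsub hr z h1 h2
  by_cases e : P.txt y = P.txt z
  · refine Or.inl ⟨y, e, g2, ?_⟩
    by_contra hc
    exact g3 ⟨by omega, fun n _ _ => by rw [e]⟩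
  obtain ⟨α, β, a1, a2, a3, a4, a5⟩ := exists_run e g1
  have hm := P.G_mono y (show α - 1 ≤ i by omega)
  have hG : P.G y (α - 1) ≤ β := by
    by_cases hb : β < j
    · exact g4 _ _ (by omega) a2 hb a4 a5 fun n b1 b2 => a3 n (by omega) b2
    · by_contra hc
      exact g3 ⟨by omega, fun n b1 b2 => a3 n (by omega) (by omega)⟩
  refine Or.inr ⟨y, α, β, a1, a2, a3, a4, hG, ?_⟩
  by_cases hc : P.G y i ≤ β
  · exact ⟨i, P.G y i, a1, hc, P.G_mono y (by omega), le_rfl, by omega⟩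
  · obtain ⟨a, b1, b2, b3, b4⟩ := exists_cross (f := P.G y) (x := α - 1) (x' := i) (y := β + 1)
      (by omega) (by omega) (by omega)
    have := P.G_mono z (show a - 1 ≤ i - 1 by omega)
    exact ⟨a, β, by omega, le_rfl, by omega, by omega, by omega⟩

end Pre

end Crest.Agent.R287
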