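import Crest.Agent.R287.Valid

/-!
# Realising a valid count function by a sorted token system
-/

namespace Crest.Agent.R287

open Finset

section pc
variable {Tok : Type} [Fintype Tok] (tp : Tok → Str)

open Classical in
noncomputable def pc (s : Str) : ℕ := (univ.filter fun z => s <+: tp z).card

open Classical in
theorem sum_pc {I : Finset Str} {l : ℕ} (h : ∀ r ∈ I, r.length = l) :
    ∑ r ∈ I, pc tp r = (univ.filter fun z => ∃ r ∈ I, r <+: tp z).card := by
  simp only [pc]
  rw [← card_biUnion]
  · congr 1; ext z; simp
  · intro r hr r' hr' hne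
    rw [Function.onFun, disjoint_left]
    intro z h1 h2
    simp only [mem_filter, mem_univ, true_and] at h1 h2
    exact hne (Pre.prefix_unique h1 h2 (by rw [h r hr, h r' hr']))

open Classical in
theorem pc_split {S : List Str} (h : ∀ z, tp z ∈ subL S) (s : Str) :
    pc tp s = (univ.filter fun z => tp z = s).card + sumD S (pc tp) s := by
  rw [sumD_eq, sum_pc tp fun r hr => Pre.length_of_dropLast hr, pc, ← card_union_of_disjoint]
  · congr 1
    ext z
    simp only [mem_filter, mem_univ, true_and, mem_union, mem_Sub]
    constructor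
    · rintro ⟨t, ht⟩
      cases t with
      | nil => left; simpa using ht.symm
      | cons a t =>
        right
        have hp : s ++ [a] <+: tp z := ⟨t, by simpa using ht⟩
        exact ⟨s ++ [a], ⟨subL_infix (h z) hp.isInfix (by simp), by simp⟩, hp⟩
    · rintro (rfl | ⟨r, ⟨-, rfl⟩, hr⟩)
      · exact List.prefix_rfl
      · exact (List.dropLast_prefix r).trans hr
  · rw [disjoint_left]
    intro z h1 h2
    simp only [mem_filter, mem_univ, true_and] at h1 h2
    obtain ⟨r, hr, h3⟩ := h2
    have := Pre.length_of_dropLast (mem_filter.2 hr)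
    have := h3.length_le
    rw [h1] at this
    omega

open Classical in
theorem sumT_pc {S : List Str} (h : ∀ z, tp z ∈ subL S) (s : Str) :
    sumT S (pc tp) s = (univ.filter fun z => s <+: (tp z).tail).card := by
  rw [sumT_eq, sum_pc tp fun r hr => Pre.length_of_tail hr]
  congr 1
  ext z
  simp only [mem_filter, mem_univ, true_and, mem_Sub]
  constructor
  · rintro ⟨r, ⟨-, rfl⟩, t, ht⟩
    rw [← ht]
    cases r with
    | nil => exact List.nil_prefix
    | cons a r => exact List.prefix_append _ _
  · intro hs
    have hz := h z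
    cases e : tp z with
    | nil => exact absurd e (mem_subL.1 hz).1
    | cons a t =>
      rw [e, List.tail_cons] at hs
      have hp : a :: s <+: a :: t := List.cons_prefix_cons.2 ⟨rfl, hs⟩
      exact ⟨a :: s, ⟨subL_infix hz (e ▸ hp.isInfix) (by simp), rfl⟩, hp⟩

open Classical in
theorem exists_succ_perm
    (h : ∀ s, (univ.filter fun z => s <+: (tp z).tail).card ≤ pc tp s) :
    ∃ σ : Equiv.Perm Tok, ∀ z, (tp z).tail <+: tp (σ z) := by
  have := (all_card_le_biUnion_card_iff_exists_injective
    (fun x : Tok => univ.filter fun y => (tp x).tail <+: tp y)).1 fun X => by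
      set I := X.image fun x => (tp x).tail with hI
      set M := I.filter fun s => ∀ t ∈ I, t <+: s → t = s with hM
      have hmin : ∀ s ∈ I, ∃ t ∈ M, t <+: s := by
        intro s hs
        obtain ⟨t, ht, hmin⟩ := exists_min_image (I.filter fun t => t <+: s) List.length
          ⟨s, mem_filter.2 ⟨hs, List.prefix_rfl⟩⟩
        rw [mem_filter] at ht
        refine ⟨t, mem_filter.2 ⟨ht.1, fun t' h1 h2 => ?_⟩, ht.2⟩
        exact h2.eq_of_length (le_antisymm h2.length_le
          (hmin t' (mem_filter.2 ⟨h1, h2.trans ht.2⟩)))
      calc X.card ≤ (M.biUnion fun s => univ.filter fun z => s <+: (tp z).tail).card := by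
            refine card_le_card fun x hx => ?_
            obtain ⟨t, ht, h2⟩ := hmin _ (mem_image_of_mem _ hx)
            exact mem_biUnion.2 ⟨t, ht, by simpa using h2⟩
        _ ≤ ∑ s ∈ M, pc tp s := card_biUnion_le.trans (sum_le_sum fun s _ => h s)
        _ = (M.biUnion fun s => univ.filter fun z => s <+: tp z).card := by
            rw [card_biUnion]; · rfl
            intro s hs t ht hne
            rw [Function.onFun, disjoint_left]
            intro z h1 h2
            simp only [mem_filter, mem_univ, true_and] at h1 h2
            rw [mem_coe, mem_filter] at hs ht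
            rcases List.prefix_or_prefix_of_prefix h1 h2 with h3 | h3
            · exact hne (ht.2 s hs.1 h3)
            · exact hne (hs.2 t ht.1 h3).symm
        _ ≤ _ := by
            refine card_le_card fun y hy => ?_
            obtain ⟨s, hs, h2⟩ := mem_biUnion.1 hy
            obtain ⟨x, hx, rfl⟩ := mem_image.1 (mem_filter.1 hs).1
            exact mem_biUnion.2 ⟨x, hx, h2⟩
  obtain ⟨g, h1, h2⟩ := this
  exact ⟨Equiv.ofBijective g (Finite.injective_iff_bijective.1 h1), fun z => by simpa using h2 z⟩

omit [Fintype Tok] in
theorem exists_pre_of (σ : Equiv.Perm Tok) (h0 : ∀ z, tp z ≠ [])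
    (h : ∀ z, (tp z).tail <+: tp (σ z)) : ∃ P : Pre Tok, P.top = tp := by
  refine ⟨⟨σ, fun z n => (tp ((σ ^ n) z)).getD 0 0, fun z => (tp z).length, fun z n => ?_,
    fun z => List.length_pos_iff.2 (h0 z), fun z => ?_⟩, ?_⟩
  · simp [zpow_add]
  · have := (h z).length_le
    rw [List.length_tail] at this
    omega
  · have key : ∀ (k : ℕ) (z : Tok), k < (tp z).length →
        (tp ((σ ^ k) z)).getD 0 0 = (tp z).getD k 0 := by
      intro k
      induction k with
      | zero => intro z _; simp
      | succ k ih =>
        intro z hk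
        obtain ⟨t, ht⟩ := h z
        have hl := congrArg List.length ht
        rw [List.length_append, List.length_tail] at hl
        rw [pow_succ, Equiv.Perm.mul_apply, ih _ (by omega), ← ht,
          List.getD_append _ _ _ _ (by rw [List.length_tail]; omega)]
        simp
    funext z
    apply List.ext_getElem
    · simp [Pre.top]
    · intro i h1 h2
      simp only [Pre.top, getElem_seg, zero_add, zpow_natCast]
      rw [key i z h2, List.getD_eq_getElem _ _ h2]

end pc

theorem exists_pre {S : List Str} {f : Str → ℕ} (hf : Valid S f) :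
    ∃ (Tok : Type) (_ : Fintype Tok) (P : Pre Tok), (∀ z, P.top z ∈ subL S) ∧
      ∀ s, s ≠ [] → P.cnt s = f s := by
  classical
  let Tok : Type := Σ v : {v // v ∈ Sub S}, Fin (f v - sumD S f v)
  let tp : Tok → Str := fun z => z.1.1
  have hsub : ∀ z, tp z ∈ subL S := fun z => mem_Sub.1 z.1.2
  have hfib : ∀ s ∈ subL S, (univ.filter fun z => tp z = s).card = f s - sumD S f s := by
    intro s hs
    have : (univ.filter fun z => tp z = s) =
        (univ : Finset (Fin (f s - sumD S f s))).map
          ⟨fun k => (⟨⟨s, mem_Sub.2 hs⟩, k⟩ : Tok), fun a b h => by simpa using h⟩ := by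
      ext ⟨⟨v, hv⟩, k⟩
      simp only [mem_filter, mem_univ, true_and, mem_map, Function.Embedding.coeFn_mk, tp]
      constructor
      · rintro rfl; exact ⟨k, rfl⟩
      · rintro ⟨k', h⟩
        exact (congrArg (fun z : Tok => z.1.1) h).symm
    rw [this, card_map, card_univ, Fintype.card_fin]
  have hpc : ∀ (n : ℕ) (s : Str), S.flatten.length < n + s.length → s ≠ [] → pc tp s = f s := by
    intro n
    induction n with
    | zero =>
      intro s h1 h2
      have hs : s ∉ subL S := fun hs => by have := length_le_of_mem_subL hs; omega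
      rw [hf.zero s hs, pc, card_eq_zero, filter_eq_empty_iff]
      exact fun z _ h => hs (subL_infix (hsub z) h.isInfix h2)
    | succ n ih =>
      intro s h1 h2
      by_cases hs : s ∈ subL S
      · have e : sumD S (pc tp) s = sumD S f s := by
          rw [sumD_eq, sumD_eq]
          refine sum_congr rfl fun r hr => ih r ?_ (mem_subL.1 (mem_Sub.1 (mem_filter.1 hr).1)).1
          rw [Pre.length_of_dropLast hr]; omega
        have := hf.D s hs
        rw [pc_split tp hsub, e]
        have := hfib s hs
        omega
      · rw [hf.zero s hs, pc, card_eq_zero, filter_eq_empty_iff]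
        exact fun z _ h => hs (subL_infix (hsub z) h.isInfix h2)
  have hpc' : ∀ s, s ≠ [] → pc tp s = f s := fun s hs => hpc (S.flatten.length + 1) s (by omega) hs
  obtain ⟨σ, hσ⟩ := exists_succ_perm tp fun s => by
    by_cases h0 : s = []
    · subst h0; simp [pc]
    by_cases hs : s ∈ subL S
    · have e : sumT S (pc tp) s = sumT S f s := by
        rw [sumT_eq, sumT_eq]
        exact sum_congr rfl fun r hr => hpc' r (mem_subL.1 (mem_Sub.1 (mem_filter.1 hr).1)).1
      rw [← sumT_pc tp hsub, e, hpc' s h0]
      exact hf.T s hs
    · refine le_of_eq_of_le ?_ (Nat.zero_le _)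
      rw [card_eq_zero, filter_eq_empty_iff]
      exact fun z _ h => hs (subL_infix (hsub z)
        (h.isInfix.trans (List.tail_suffix _).isInfix) h0)
  obtain ⟨P, hP⟩ := exists_pre_of tp σ (fun z => (mem_subL.1 (hsub z)).1) hσ
  refine ⟨Tok, inferInstance, P, fun z => hP ▸ hsub z, fun s hs => ?_⟩
  rw [← hpc' s hs, ← hP]
  rfl

/-- A token system whose layers over equal texts are primitive and nested. -/
structure Sys (Tok : Type) extends Pre Tok where
  rank : Tok → ℕ
  rank_σ : ∀ z, rank (σ z) = rank z
  inj : ∀ y z, txt y = txt z → rank y = rank z → y = z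
  mono : ∀ y z, txt y = txt z → rank y ≤ rank z → len y ≤ len z

theorem exists_sys {Tok : Type} [Fintype Tok] (P : Pre Tok) :
    ∃ Q : Sys Tok, Q.txt = P.txt ∧ Q.len = P.len := by
  classical
  let key : Tok → ℕ := fun z => P.len z * Fintype.card Tok + Fintype.equivFin Tok z
  have key_lt : ∀ y z, P.len y < P.len z → key y < key z := by
    intro y z h
    have h1 := (Fintype.equivFin Tok y).2
    have h2 : (P.len y + 1) * Fintype.card Tok ≤ P.len z * Fintype.card Tok :=
      Nat.mul_le_mul_right _ h
    simp only [key]
    rw [add_mul] at h2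
    omega
  have key_inj : ∀ y z, key y = key z → y = z := by
    intro y z h
    have e : P.len y = P.len z := by
      by_contra hne
      rcases lt_or_gt_of_ne hne with h1 | h1
      · have := key_lt _ _ h1; omega
      · have := key_lt _ _ h1; omega
    simp only [key, e] at h
    exact (Fintype.equivFin Tok).injective (Fin.ext (by omega))
  let fib : (ℤ → ℕ) → Finset Tok := fun B => univ.filter fun z => P.txt z = B
  let rank : Tok → ℕ := fun z => ((fib (P.txt z)).filter fun y => key y < key z).card
  have rank_lt : ∀ y z, P.txt y = P.txt z → key y < key z → rank y < rank z := by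
    intro y z h1 h2
    refine card_lt_card ⟨fun x hx => ?_, fun h => ?_⟩
    · simp only [fib, mem_filter, mem_univ, true_and] at hx ⊢
      exact ⟨hx.1.trans h1, hx.2.trans h2⟩
    · have := h (show y ∈ _ by simp [fib, h1, h2])
      simp at this
  have rank_inj : ∀ y z, P.txt y = P.txt z → rank y = rank z → y = z := by
    intro y z h1 h2
    apply key_inj
    by_contra hne
    rcases lt_or_gt_of_ne hne with h | h
    · have := rank_lt _ _ h1 h; omega
    · have := rank_lt _ _ h1.symm h; omega
  have rank_bd : ∀ z, rank z < (fib (P.txt z)).card := fun z =>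
    card_lt_card ⟨filter_subset _ _, fun h => by
      have := h (show z ∈ _ by simp [fib])
      simp at this⟩
  have rank_surj : ∀ B j, j < (fib B).card → ∃ z, P.txt z = B ∧ rank z = j := by
    intro B j hj
    have h1 : (fib B).image rank = range (fib B).card := by
      refine eq_of_subset_of_card_le (fun i hi => ?_) ?_
      · obtain ⟨z, hz, rfl⟩ := mem_image.1 hi
        have e : P.txt z = B := by simpa [fib] using hz
        rw [mem_range, ← e]; exact rank_bd z
      · rw [card_range, card_image_of_injOn]
        intro y hy z hz h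
        have e1 : P.txt y = B := by simpa [fib] using hy
        have e2 : P.txt z = B := by simpa [fib] using hz
        exact rank_inj y z (e1.trans e2.symm) h
    have : j ∈ (fib B).image rank := by rw [h1]; exact mem_range.2 hj
    obtain ⟨z, hz, h⟩ := mem_image.1 this
    exact ⟨z, by simpa [fib] using hz, h⟩
  have txt_iff : ∀ y z, P.txt (P.σ y) = P.txt (P.σ z) ↔ P.txt y = P.txt z := by
    intro y z
    constructor
    · intro h; funext n
      have := congrFun h (n - 1)
      rwa [P.txt_σ, P.txt_σ, sub_add_cancel] at this
    · intro h; funext n; rw [P.txt_σ, P.txt_σ, h]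
  have fib_card : ∀ z, (fib (P.txt z)).card ≤ (fib (P.txt (P.σ z))).card := fun z =>
    card_le_card_of_injOn P.σ (fun y hy => by simpa [fib, txt_iff] using hy)
      (P.σ.injective.injOn)
  choose g hg1 hg2 using fun z => rank_surj (P.txt (P.σ z)) (rank z)
    ((rank_bd z).trans_le (fib_card z))
  have g_inj : Function.Injective g := fun y z h =>
    rank_inj y z ((txt_iff y z).1 (by rw [← hg1, h, hg1])) (by rw [← hg2, h, hg2])
  have key_le : ∀ y z, key y ≤ key z → P.len y ≤ P.len z := fun y z h => by
    by_contra hc
    have := key_lt z y (by omega)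
    omega
  refine ⟨⟨⟨Equiv.ofBijective g (Finite.injective_iff_bijective.1 g_inj), P.txt, P.len,
    fun z n => ?_, P.len_pos, fun z => ?_⟩, rank, hg2, rank_inj, fun y z h1 h2 => ?_⟩, rfl, rfl⟩
  · simp only [Equiv.ofBijective_apply]; rw [hg1, P.txt_σ]
  · simp only [Equiv.ofBijective_apply]
    by_contra hc
    have h1 : (insert (g z) ((fib (P.txt (g z))).filter fun y => key y < key (g z))).card ≤
        rank z := by
      refine card_le_card_of_injOn P.σ.symm (fun y hy => ?_) (P.σ.symm.injective.injOn)
      have hy' : P.txt y = P.txt (g z) ∧ key y ≤ key (g z) := by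
        rcases mem_insert.1 hy with rfl | hy
        · exact ⟨rfl, le_rfl⟩
        · simp only [fib, mem_filter, mem_univ, true_and] at hy
          exact ⟨hy.1, hy.2.le⟩
      have a1 := key_le _ _ hy'.2
      have a2 := P.len_σ (P.σ.symm y)
      rw [Equiv.apply_symm_apply] at a2
      simp only [fib, coe_filter, mem_filter, mem_univ, true_and, Set.mem_ofPred_eq]
      refine ⟨(txt_iff _ _).1 ?_, key_lt _ _ (by omega)⟩
      rw [Equiv.apply_symm_apply, hy'.1, hg1]
    rw [card_insert_of_notMem (by simp)] at h1
    have := hg2 z
    simp only [rank] at this h1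
    omega
  · apply key_le
    by_contra hc
    have := rank_lt z y h1.symm (by omega)
    omega

theorem exists_sys_valid {S : List Str} {f : Str → ℕ} (hf : Valid S f) :
    ∃ (Tok : Type) (_ : Fintype Tok) (Q : Sys Tok), (∀ z, Q.top z ∈ subL S) ∧
      ∀ s, s ≠ [] → Q.cnt s = f s := by
  obtain ⟨Tok, _, P, h1, h2⟩ := exists_pre hf
  obtain ⟨Q, e1, e2⟩ := exists_sys P
  have e : Q.top = P.top := by funext z; simp only [Pre.top, e1, e2]
  refine ⟨Tok, inferInstance, Q, fun z => e ▸ h1 z, fun s hs => ?_⟩
  rw [← h2 s hs, Pre.cnt, Pre.cnt, Pre.occ, Pre.occ, e]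

end Crest.Agent.R287
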