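import Crest.Agent.R287.Hall

/-!
# Periods, orbits and budgets of a token system
-/

namespace Crest.Agent.R287

open Finset

theorem exists_cross {f : ℤ → ℤ} {x x' y : ℤ} (h : x ≤ x') (h1 : f x < y) (h2 : y ≤ f x') :
    ∃ a, x < a ∧ a ≤ x' ∧ f (a - 1) < y ∧ y ≤ f a := by
  obtain ⟨a, ⟨a1, a2⟩, a3⟩ := Int.exists_least_of_bdd (P := fun a => x ≤ a ∧ y ≤ f a)
    ⟨x, fun z hz => hz.1⟩ ⟨x', h, h2⟩
  have hx : x < a := by
    rcases eq_or_lt_of_le a1 with rfl | h
    · omega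
    · exact h
  refine ⟨a, hx, a3 x' ⟨h, h2⟩, ?_, a2⟩
  by_contra hc
  have := a3 (a - 1) ⟨by omega, by omega⟩
  omega

namespace Pre

variable {Tok : Type} [Fintype Tok] (P : Pre Tok)

/-- The period of a token. -/
noncomputable def pd (z : Tok) : ℕ := Function.minimalPeriod P.σ z

theorem pd_pos (z : Tok) : 0 < P.pd z :=
  Function.minimalPeriod_pos_of_mem_periodicPts (P.σ.injective.mem_periodicPts z)

omit [Fintype Tok] in
theorem sh_nat (n : ℕ) (z : Tok) : P.sh n z = P.σ^[n] z := by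
  rw [sh, zpow_natCast, Equiv.Perm.iterate_eq_pow]

omit [Fintype Tok] in
theorem sh_pd (z : Tok) : P.sh (P.pd z) z = z := by
  rw [sh_nat]; exact Function.iterate_minimalPeriod

omit [Fintype Tok] in
theorem sh_mul_pd (k : ℤ) (z : Tok) : P.sh (k * P.pd z) z = z := by
  induction k using Int.induction_on with
  | zero => simp
  | succ k ih => rw [add_mul, one_mul, sh_add, sh_pd, ih]
  | pred k ih =>
    apply P.sh_inj (P.pd z)
    rw [← sh_add, sh_pd, show (P.pd z : ℤ) + (-(k : ℤ) - 1) * P.pd z = -(k : ℤ) * P.pd z by ring, ih]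

omit [Fintype Tok] in
theorem per_txt (z : Tok) : Per (P.txt z) (P.pd z) := fun n => by rw [← P.txt_sh, sh_pd]

omit [Fintype Tok] in
theorem G_mul_pd (z : Tok) (k n : ℤ) : P.G z (n + k * P.pd z) = P.G z n + k * P.pd z := by
  have := P.G_sh (k * P.pd z) z n
  rw [sh_mul_pd] at this
  omega

omit [Fintype Tok] in
theorem G_pd (z : Tok) (n : ℤ) : P.G z (n + P.pd z) = P.G z n + P.pd z := by
  simpa using P.G_mul_pd z 1 n

omit [Fintype Tok] in
theorem pd_dvd {z : Tok} {n : ℕ} (h : P.sh n z = z) : P.pd z ∣ n := by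
  rw [sh_nat] at h
  exact Function.IsPeriodicPt.minimalPeriod_dvd h

omit [Fintype Tok] in
theorem pd_sh (k : ℤ) (z : Tok) : P.pd (P.sh k z) = P.pd z := by
  refine Nat.dvd_antisymm (P.pd_dvd ?_) (P.pd_dvd ?_)
  · rw [← sh_add, add_comm, sh_add, sh_pd]
  · apply P.sh_inj k
    rw [← sh_add, add_comm, sh_add, sh_pd]

/-- Two tokens on the same cycle. -/
def Same (y z : Tok) : Prop := ∃ k : ℤ, y = P.sh k z

omit [Fintype Tok] in
theorem Same.pd {P : Pre Tok} {y z : Tok} (h : P.Same y z) : P.pd y = P.pd z := by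
  obtain ⟨k, rfl⟩ := h; exact P.pd_sh k z

open Classical in
noncomputable def orb (z : Tok) : Finset Tok := (range (P.pd z)).image fun n : ℕ => P.sh n z

omit [Fintype Tok] in
theorem card_orb (z : Tok) : (P.orb z).card = P.pd z := by
  classical
  rw [orb, card_image_of_injOn, card_range]
  intro a ha b hb h
  simp only [sh_nat] at h
  exact Function.iterate_injOn_Iio_minimalPeriod (mem_range.1 ha) (mem_range.1 hb) h

omit [Fintype Tok] in
theorem same_of_mem_orb {y z : Tok} (h : y ∈ P.orb z) : P.Same y z := by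
  classical
  obtain ⟨n, -, rfl⟩ := mem_image.1 h
  exact ⟨n, rfl⟩

omit [Fintype Tok] in
theorem disjoint_orb {y z : Tok} (h : ¬ P.Same y z) : Disjoint (P.orb y) (P.orb z) := by
  rw [disjoint_left]
  intro x h1 h2
  obtain ⟨a, ha⟩ := P.same_of_mem_orb h1
  obtain ⟨b, hb⟩ := P.same_of_mem_orb h2
  exact h ⟨-a + b, by rw [sh_add, ← hb, ha, ← sh_add]; simp⟩

/-- `R` contains, for each token, all or none of the vertices of its staircase. -/
def Cl (R : Set Str) : Prop :=
  ∀ z x y, P.G z (x - 1) ≤ y → y ≤ P.G z x → (seg (P.txt z) x y ∈ R ↔ P.top z ∈ R)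

omit [Fintype Tok] in
theorem Cl.sh {P : Pre Tok} {R : Set Str} (h : P.Cl R) (k : ℤ) (z : Tok) :
    P.top (P.sh k z) ∈ R ↔ P.top z ∈ R := by
  rw [top_sh]; exact h z k _ (P.G_mono z (by omega)) le_rfl

open Classical in
/-- The newly rooted tokens. -/
noncomputable def new (R R' : Set Str) : Finset Tok :=
  univ.filter fun z => P.top z ∈ R' ∧ P.top z ∉ R

variable {P} {R R' : Set Str}

theorem orb_subset (h : P.Cl R) (h' : P.Cl R') {z : Tok} (h1 : P.top z ∈ R') (h2 : P.top z ∉ R) :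
    P.orb z ⊆ P.new R R' := by
  intro y hy
  obtain ⟨k, rfl⟩ := P.same_of_mem_orb hy
  simp only [new, mem_filter, mem_univ, true_and, h.sh, h'.sh]
  exact ⟨h1, h2⟩

theorem bud1 (h : P.Cl R) (h' : P.Cl R') {z : Tok} (h1 : P.top z ∈ R') (h2 : P.top z ∉ R) :
    P.pd z ≤ (P.new R R').card := by
  rw [← card_orb]; exact card_le_card (orb_subset h h' h1 h2)

theorem bud2 (h : P.Cl R) (h' : P.Cl R') {z y : Tok} (h1 : P.top z ∈ R') (h2 : P.top z ∉ R)
    (h3 : P.top y ∈ R') (h4 : P.top y ∉ R) (hn : ¬ P.Same y z) :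
    P.pd y + P.pd z ≤ (P.new R R').card := by
  classical
  rw [← card_orb, ← card_orb, ← card_union_of_disjoint (P.disjoint_orb hn)]
  exact card_le_card (union_subset (orb_subset h h' h3 h4) (orb_subset h h' h1 h2))

theorem bud3 (h : P.Cl R) (h' : P.Cl R') {z y x : Tok} (h1 : P.top z ∈ R') (h2 : P.top z ∉ R)
    (h3 : P.top y ∈ R') (h4 : P.top y ∉ R) (h5 : P.top x ∈ R') (h6 : P.top x ∉ R)
    (hn : ¬ P.Same y z) (hn' : ¬ P.Same x z) (hn'' : ¬ P.Same x y) :
    P.pd x + (P.pd y + P.pd z) ≤ (P.new R R').card := by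
  classical
  rw [← card_orb, ← card_orb, ← card_orb, ← card_union_of_disjoint (P.disjoint_orb hn),
    ← card_union_of_disjoint (disjoint_union_right.2 ⟨P.disjoint_orb hn'', P.disjoint_orb hn'⟩)]
  exact card_le_card (union_subset (orb_subset h h' h5 h6)
    (union_subset (orb_subset h h' h3 h4) (orb_subset h h' h1 h2)))

end Pre

namespace Sys

variable {Tok : Type} (Q : Sys Tok)

theorem rank_sh (k : ℤ) (z : Tok) : Q.rank (Q.sh k z) = Q.rank z := by
  induction k using Int.induction_on with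
  | zero => simp
  | succ k ih => rw [Pre.sh_succ, Q.rank_σ, ih]
  | pred k ih =>
    rw [← Q.rank_σ, ← Pre.sh_succ, show -(k : ℤ) - 1 + 1 = -(k : ℤ) by ring, ih]

theorem pd_dvd_of_txt {y z : Tok} (h : Q.txt y = Q.txt z) : Q.pd z ∣ Q.pd y := by
  refine Q.pd_dvd (Q.inj _ _ ?_ (Q.rank_sh _ _))
  funext n
  rw [Q.txt_sh, ← h, Q.per_txt]

theorem pd_eq_of_txt {y z : Tok} (h : Q.txt y = Q.txt z) : Q.pd y = Q.pd z :=
  Nat.dvd_antisymm (Q.pd_dvd_of_txt h.symm) (Q.pd_dvd_of_txt h)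

theorem rank_lt {y z : Tok} (h : Q.txt y = Q.txt z) {i : ℤ} (hi : Q.G y i < Q.G z i) :
    Q.rank y < Q.rank z := by
  by_contra hc
  have := Q.mono (Q.sh i z) (Q.sh i y) (by funext n; rw [Q.txt_sh, Q.txt_sh, h])
    (by rw [rank_sh, rank_sh]; omega)
  simp only [Pre.G] at hi
  omega

end Sys

end Crest.Agent.R287
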