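import Crest.Agent.R287.Defs

/-!
# Row 287: the algorithm runs in polynomial time
-/

set_option autoImplicit false

namespace Crest.Agent.R287

open Crest.Agent.Lib.PolyTime

variable {α : Type*} [PEnc α]

@[fun_prop] theorem poly_subL {S : α → List Str} (hS : Poly S) : Poly fun a => subL (S a) := by
  unfold subL; fun_prop

@[fun_prop] theorem poly_per {w : α → Str} {p : α → ℕ} {n : α → ℤ} (hw : Poly w) (hp : Poly p)
    (hn : Poly n) : Poly fun a => per (w a) (p a) (n a) := by
  unfold per; fun_prop

@[fun_prop] theorem poly_blk {A : α → ℤ → ℕ} {r : α → Str} {pos : α → ℕ}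
    (hA : Poly fun p : α × ℤ => A p.1 p.2) (hr : Poly r) (hp : Poly pos) :
    Poly fun a => blk (A a) (r a) (pos a) := by
  unfold blk; fun_prop

@[fun_prop] theorem poly_bsum {S : α → List Str} {f : α → Str → ℕ} {A : α → ℤ → ℕ}
    {q : α → ℕ → Bool} (hS : Poly S) (hf : Poly fun p : α × Str => f p.1 p.2)
    (hA : Poly fun p : α × ℤ => A p.1 p.2) (hq : Poly fun p : α × ℕ => q p.1 p.2) :
    Poly fun a => bsum (S a) (f a) (A a) (q a) := by
  unfold bsum; fun_prop

@[fun_prop] theorem poly_rule {S : α → List Str} {f : α → Str → ℕ} {s w : α → Str}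
    (hS : Poly S) (hf : Poly fun p : α × Str => f p.1 p.2) (hs : Poly s) (hw : Poly w) :
    Poly fun a => rule (S a) (f a) (s a) (w a) := by
  unfold rule; fun_prop

@[fun_prop] theorem poly_sumT {S : α → List Str} {f : α → Str → ℕ} {s : α → Str}
    (hS : Poly S) (hf : Poly fun p : α × Str => f p.1 p.2) (hs : Poly s) :
    Poly fun a => sumT (S a) (f a) (s a) := by
  unfold sumT; fun_prop

@[fun_prop] theorem poly_sumD {S : α → List Str} {f : α → Str → ℕ} {s : α → Str}
    (hS : Poly S) (hf : Poly fun p : α × Str => f p.1 p.2) (hs : Poly s) :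
    Poly fun a => sumD (S a) (f a) (s a) := by
  unfold sumD; fun_prop

@[fun_prop] theorem poly_foldr_max {l : α → List ℕ} (hl : Poly l) :
    Poly fun a => (l a).foldr max 0 :=
  Poly.foldr_select (h := fun _ => max) hl (by fun_prop) (by fun_prop)
    fun _ x s => (max_choice x s).symm

@[fun_prop] theorem poly_phi {S : α → List Str} {f : α → Str → ℕ} {s : α → Str}
    (hS : Poly S) (hf : Poly fun p : α × Str => f p.1 p.2) (hs : Poly s) :
    Poly fun a => phi (S a) (f a) (s a) := by
  unfold phi; fun_prop

/-- Table lookup. -/
def look (T : List (Str × ℕ)) (s : Str) : ℕ := (T.lookup s).getD 0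

@[fun_prop] theorem poly_look {T : α → List (Str × ℕ)} {s : α → Str} (hT : Poly T) (hs : Poly s) :
    Poly fun a => look (T a) (s a) := by
  unfold look; fun_prop

/-- The table of the `i`-th iterate. -/
def tab (S : List Str) (i : ℕ) : List (Str × ℕ) :=
  (subL S).map fun s => (s, (phi S)^[i] (fun _ => 0) s)

theorem look_map (l : List Str) (f : Str → ℕ) (s : Str) :
    look (l.map fun s => (s, f s)) s = if s ∈ l then f s else 0 := by
  induction l with
  | nil => rfl
  | cons x xs ih =>
    by_cases h : s = x
    · subst h; simp [look]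
    · have h' : (s == x) = false := by simpa using h
      simp only [look, List.map_cons, List.lookup, h', List.mem_cons, h, false_or] at ih ⊢
      exact ih

theorem look_tab (S : List Str) (i : ℕ) : look (tab S i) = (phi S)^[i] fun _ => 0 := by
  funext s
  rw [tab, look_map]
  split_ifs with h
  · rfl
  · cases i with
    | zero => rfl
    | succ i => rw [Function.iterate_succ_apply', phi, if_neg h]

theorem poly_tab (h : BoundStmt) : Poly fun S : List Str => tab S (S.flatten.length + 1) := by
  refine Poly.natRec' (f := tab) (g := fun S => (subL S).map fun s => (s, 0))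
    (h := fun S _ T => (subL S).map fun s => (s, phi S (look T) s)) (by fun_prop) (by fun_prop)
    (by fun_prop) (by fun_prop) (fun _ => rfl) (fun S i _ => ?_)
    (B := fun S => (subL S).length * (sz (subL S) + (4 * S.flatten.length + 1) + 1 + 1) + 1)
    (by fun_prop) fun S i _ => ?_
  · rw [look_tab, tab, Function.iterate_succ_apply']
  · refine (sz_list_le (B := sz (subL S) + (4 * S.flatten.length + 1) + 1) fun x hx => ?_).trans ?_
    · obtain ⟨s, hs, rfl⟩ := List.mem_map.1 hx
      rw [sz_pair]
      have h1 := sz_le_of_mem hs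
      have h2 := sz_le_self ((phi S)^[i] (fun _ => 0) s)
      have h3 := h S i s
      omega
    · rw [tab, List.length_map]

theorem poly_mm (h : BoundStmt) : Poly fun p : List Str × Str => mm p.1 p.2 :=
  (poly_look ((poly_tab h).comp Poly.id'.fst) Poly.id'.snd).congr fun p => by
    rw [look_tab]; rfl

theorem poly_base (h : BoundStmt) : Poly base := by
  have hm := poly_mm h
  have hb : PB fun p : List Str × Str => mm p.1 p.2 :=
    PB.mono (h := fun p => p.1.flatten.length) (by fun_prop) fun p => h _ _ _
  unfold base arcsOf
  refine Poly.flatMap (by fun_prop) (Poly.append ?_ ?_)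
  · exact Poly.replicate (by fun_prop) (hb.sub _) (by fun_prop)
  · exact Poly.replicate (by fun_prop) (hb.sub _) (by fun_prop)

@[fun_prop] theorem poly_lastV {W : α → List Arc} (hW : Poly W) : Poly fun a => lastV (W a) := by
  unfold lastV; fun_prop

@[fun_prop] theorem poly_astep {st : α → List Arc × List Arc} (h : Poly st) :
    Poly fun a => astep (st a) := by
  unfold astep; fun_prop

theorem sz_move {l l' r : List Arc} {e : Arc} (hl : l'.Perm l) (he : e ∈ r) :
    sz (l' ++ [e], r.erase e) ≤ sz (l, r) := by
  have h1 := Poly.sz_perm hl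
  have h2 := Poly.sz_perm (List.perm_cons_erase he)
  have h3 := sz_append l' [e]
  simp only [sz_pair, sz_cons, sz_nil] at h2 h3 ⊢
  omega

theorem sz_astep (st : List Arc × List Arc) : sz (astep st) ≤ sz st := by
  unfold astep
  cases h1 : st.2.find? fun e => e.1 == lastV st.1 with
  | some e => exact sz_move (List.Perm.refl _) (List.mem_of_find?_eq_some h1)
  | none =>
    cases h2 : st.2.find? fun e => st.1.any fun a => a.1 == e.1 with
    | some e => exact sz_move (List.rotate_perm _ _) (List.mem_of_find?_eq_some h2)
    | none => exact le_rfl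

theorem sz_absorb (st : List Arc × List Arc) : sz (absorb st) ≤ sz st := by
  unfold absorb
  induction st.2.length with
  | zero => exact le_rfl
  | succ n ih => rw [Function.iterate_succ_apply']; exact (sz_astep _).trans ih

@[fun_prop] theorem poly_absorb {st : α → List Arc × List Arc} (h : Poly st) :
    Poly fun a => absorb (st a) :=
  Poly.iterate_add (h := fun _ => astep) (by fun_prop) (by fun_prop) h (by fun_prop)
    (fun _ => 0) (by fun_prop) fun _ s => sz_astep s

@[fun_prop] theorem poly_opArcs {Z : α → Str} {k : α → ℕ} (hZ : Poly Z) (hk : Poly k) :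
    Poly fun a => opArcs (Z a) (k a) := by
  unfold opArcs; fun_prop

@[fun_prop] theorem poly_cost {L : α → List Arc} (h : Poly L) : Poly fun a => cost (L a) := by
  unfold cost; fun_prop

@[fun_prop] theorem poly_spell {L : α → List Arc} (h : Poly L) : Poly fun a => spell (L a) := by
  unfold spell; fun_prop

@[fun_prop] theorem poly_cyc {u : α → Str} {L : α → ℕ} (hu : Poly u) (hL : Poly L) (hb : PB L) :
    Poly fun a => cyc (u a) (L a) := by
  unfold cyc; fun_prop

theorem poly_fam : Poly fam := by
  unfold fam
  refine Poly.flatMap (by fun_prop) ?_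
  simp only [List.flatMap_def]
  fun_prop

@[fun_prop] theorem poly_tryOp {st : α → List Arc × List Arc} {op : α → Str × ℕ} (h : Poly st)
    (ho : Poly op) : Poly fun a => tryOp (st a) (op a) := by
  unfold tryOp; fun_prop

@[fun_prop] theorem poly_okOp {st : α → List Arc × List Arc} {op : α → Str × ℕ} (h : Poly st)
    (ho : Poly op) : Poly fun a => okOp (st a) (op a) := by
  unfold okOp; fun_prop

@[fun_prop] theorem poly_ostep {F : α → List (Str × ℕ)} {st : α → List Arc × List Arc}
    (hF : Poly F) (h : Poly st) : Poly fun a => ostep (F a) (st a) := by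
  unfold ostep; fun_prop

theorem sz_ostep (F : List (Str × ℕ)) (st : List Arc × List Arc) :
    sz (ostep F st) ≤ sz st + sz (F.map fun op => opArcs op.1 op.2) := by
  unfold ostep
  cases h : F.find? (okOp st) with
  | none => exact Nat.le_add_right _ _
  | some op =>
    have h1 := sz_le_of_mem (List.mem_map_of_mem (f := fun op : Str × ℕ => opArcs op.1 op.2)
      (List.mem_of_find?_eq_some h))
    have h2 := sz_absorb (st.1, opArcs op.1 op.2 ++ st.2)
    have h3 := sz_append (opArcs op.1 op.2) st.2
    have h4 := sz_prod st
    have h5 := sz_pair st.1 (opArcs op.1 op.2 ++ st.2)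
    change sz (absorb (st.1, opArcs op.1 op.2 ++ st.2)) ≤ _
    omega

theorem poly_finalWalk (h : BoundStmt) : Poly finalWalk := by
  have hb := poly_base h
  have hf := poly_fam
  exact (Poly.iterate_add (h := fun S => ostep (fam S)) (by fun_prop) (by fun_prop) (by fun_prop)
    (by fun_prop) (fun S => sz ((fam S).map fun op => opArcs op.1 op.2)) (by fun_prop)
    fun S s => sz_ostep _ s).fst

theorem poly_alg (h : BoundStmt) : Poly alg := by
  have hw := poly_finalWalk h
  unfold alg
  fun_prop

end Crest.Agent.R287
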