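import Crest.Agent.R287.Seg

/-!
# Token systems: families of staircases over periodic texts, and their occurrence counts
-/

namespace Crest.Agent.R287

open Finset

/-- A permutation of tokens; each token carries a text and a length. -/
structure Pre (Tok : Type) where
  σ : Equiv.Perm Tok
  txt : Tok → ℤ → ℕ
  len : Tok → ℕ
  txt_σ : ∀ z n, txt (σ z) n = txt z (n + 1)
  len_pos : ∀ z, 0 < len z
  len_σ : ∀ z, len z ≤ len (σ z) + 1

namespace Pre

variable {Tok : Type} (P : Pre Tok)

def sh (n : ℤ) (z : Tok) : Tok := (P.σ ^ n) z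

theorem sh_add (m n : ℤ) (z : Tok) : P.sh (m + n) z = P.sh m (P.sh n z) := by
  simp [sh, zpow_add]

@[simp] theorem sh_zero (z : Tok) : P.sh 0 z = z := by simp [sh]

theorem sh_one (z : Tok) : P.sh 1 z = P.σ z := by simp [sh]

theorem sh_succ (n : ℤ) (z : Tok) : P.sh (n + 1) z = P.σ (P.sh n z) := by
  rw [add_comm, sh_add, sh_one]

theorem sh_inj (n : ℤ) : Function.Injective (P.sh n) := (P.σ ^ n).injective

theorem txt_sh (k : ℤ) (z : Tok) (n : ℤ) : P.txt (P.sh k z) n = P.txt z (n + k) := by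
  induction k using Int.induction_on generalizing n with
  | zero => simp
  | succ k ih => rw [sh_succ, P.txt_σ, ih]; congr 1; ring
  | pred k ih =>
    have := P.txt_σ (P.sh (-(k : ℤ) - 1) z) (n - 1)
    rw [← sh_succ, show -(k : ℤ) - 1 + 1 = -(k : ℤ) by ring, ih, sub_add_cancel] at this
    rw [← this]; congr 1; ring

/-- The staircase of a token. -/
def G (z : Tok) (n : ℤ) : ℤ := n + P.len (P.sh n z)

theorem G_mono (z : Tok) : Monotone (P.G z) := by
  refine monotone_int_of_le_succ fun n => ?_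
  have := P.len_σ (P.sh n z)
  simp only [G, sh_succ]; omega

theorem lt_G (z : Tok) (n : ℤ) : n < P.G z n := by
  have := P.len_pos (P.sh n z)
  simp only [G]; omega

theorem G_zero (z : Tok) : P.G z 0 = P.len z := by simp [G]

theorem G_sh (k : ℤ) (z : Tok) (n : ℤ) : P.G (P.sh k z) n = P.G z (n + k) - k := by
  simp only [G, sh_add]; ring

/-- The string of a token. -/
def top (z : Tok) : Str := seg (P.txt z) 0 (P.len z)

theorem length_top (z : Tok) : (P.top z).length = P.len z := by simp [top]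

theorem seg_sh (k : ℤ) (z : Tok) (x y : ℤ) :
    seg (P.txt (P.sh k z)) x y = seg (P.txt z) (x + k) (y + k) :=
  seg_ext (by ring) fun n _ _ => by rw [txt_sh]; congr 1; ring

theorem top_sh (a : ℤ) (z : Tok) : P.top (P.sh a z) = seg (P.txt z) a (P.G z a) := by
  rw [top, seg_sh, zero_add, G, add_comm]

theorem prefix_top_sh {B : ℤ → ℕ} {a b : ℤ} (z : Tok) (h : a < b) :
    seg B a b <+: P.top (P.sh a z) ↔ b ≤ P.G z a ∧ ∀ n, a ≤ n → n < b → P.txt z n = B n := by
  rw [top_sh, seg_prefix_iff h.le]; simp [h]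

theorem prefix_top {B : ℤ → ℕ} {b : ℤ} (z : Tok) (h : 0 < b) :
    seg B 0 b <+: P.top z ↔ b ≤ P.len z ∧ ∀ n, 0 ≤ n → n < b → P.txt z n = B n := by
  rw [← P.G_zero, ← P.prefix_top_sh z h, sh_zero]

theorem tail_top_prefix (z : Tok) : (P.top z).tail <+: P.top (P.σ z) := by
  rw [← sh_one, top_sh, top, seg_tail, zero_add, ← G_zero]
  exact seg_prefix (P.G_mono z (by omega))

variable [Fintype Tok]

open Classical in
/-- The tokens at which `s` occurs. -/
noncomputable def occ (s : Str) : Finset Tok := univ.filter fun z => s <+: P.top z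

@[simp] theorem mem_occ {s : Str} {z : Tok} : z ∈ P.occ s ↔ s <+: P.top z := by simp [occ]

noncomputable def cnt (s : Str) : ℕ := (P.occ s).card

theorem cnt_le (s : Str) : P.cnt s ≤ Fintype.card Tok := card_le_univ _

open Classical in
theorem cnt_sh (s : Str) (k : ℤ) :
    P.cnt s = (univ.filter fun z => s <+: P.top (P.sh k z)).card := by
  symm
  refine card_bij (fun z _ => P.sh k z) (fun z hz => by simpa using hz)
    (fun a _ b _ h => P.sh_inj k h) fun y hy => ⟨P.sh (-k) y, ?_, ?_⟩
  · simpa [← sh_add] using hy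
  · simp [← sh_add]

theorem prefix_unique {s r t : Str} (h1 : s <+: t) (h2 : r <+: t) (h : s.length = r.length) :
    s = r := (List.prefix_of_prefix_length_le h1 h2 h.le).eq_of_length h

open Classical in
theorem sum_cnt_length {I : Finset Str} {l : ℕ} (h : ∀ r ∈ I, r.length = l) :
    ∑ r ∈ I, P.cnt r = (univ.filter fun z => ∃ r ∈ I, r <+: P.top z).card := by
  simp only [cnt]
  rw [← card_biUnion]
  · congr 1; ext z; simp
  · intro r hr r' hr' hne
    rw [Function.onFun, disjoint_left]
    intro z h1 h2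
    rw [mem_occ] at h1 h2
    exact hne (prefix_unique h1 h2 (by rw [h r hr, h r' hr']))

theorem length_of_dropLast {S : List Str} {s r : Str}
    (hr : r ∈ (Sub S).filter fun r => r.dropLast = s) : r.length = s.length + 1 := by
  simp only [mem_filter, mem_Sub] at hr
  have := List.length_pos_iff.2 (mem_subL.1 hr.1).1
  rw [← hr.2, List.length_dropLast]; omega

theorem length_of_tail {S : List Str} {s r : Str}
    (hr : r ∈ (Sub S).filter fun r => r.tail = s) : r.length = s.length + 1 := by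
  simp only [mem_filter, mem_Sub] at hr
  have := List.length_pos_iff.2 (mem_subL.1 hr.1).1
  rw [← hr.2, List.length_tail]; omega

theorem sumD_cnt_le (S : List Str) (s : Str) : sumD S P.cnt s ≤ P.cnt s := by
  rw [sumD_eq, P.sum_cnt_length fun r hr => length_of_dropLast hr]
  refine card_le_card fun z hz => ?_
  simp only [mem_filter, mem_univ, true_and] at hz
  obtain ⟨r, ⟨-, rfl⟩, h⟩ := hz
  exact P.mem_occ.2 ((List.dropLast_prefix r).trans h)

theorem sumT_cnt_le (S : List Str) (s : Str) : sumT S P.cnt s ≤ P.cnt s := by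
  rw [sumT_eq, P.sum_cnt_length fun r hr => length_of_tail hr, P.cnt_sh s 1]
  refine card_le_card fun z hz => ?_
  simp only [mem_filter, mem_univ, true_and] at hz ⊢
  obtain ⟨r, ⟨-, rfl⟩, h⟩ := hz
  rw [sh_one]
  refine List.IsPrefix.trans ?_ (P.tail_top_prefix z)
  obtain ⟨t, ht⟩ := h
  rw [← ht]
  cases r with
  | nil => exact List.nil_prefix
  | cons a r => exact List.prefix_append _ _

/-- `[a, b]` is a maximal run of agreement with `A` around `0`, with its two mismatches. -/
def BD (B A : ℤ → ℕ) (a b : ℤ) : Prop :=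
  a < 0 ∧ 0 ≤ b ∧ B a ≠ A a ∧ B b ≠ A b ∧ ∀ n, a < n → n < b → B n = A n

theorem BD.unique {B A : ℤ → ℕ} {a b a' b' : ℤ} (h : BD B A a b) (h' : BD B A a' b') :
    a = a' ∧ b = b' := by
  obtain ⟨h1, h2, h3, h4, h5⟩ := h
  obtain ⟨g1, g2, g3, g4, g5⟩ := h'
  have ea : a = a' := by
    by_contra hne
    rcases lt_or_gt_of_ne hne with hl | hl
    · exact g3 (h5 _ hl (by omega))
    · exact h3 (g5 _ hl (by omega))
  refine ⟨ea, ?_⟩
  by_contra hne
  rcases lt_or_gt_of_ne hne with hl | hl
  · exact h4 (g5 _ (by omega) hl)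
  · exact g4 (h5 _ (by omega) hl)

/-- The token `z` lies in a blocked run. -/
def Blocked (S : List Str) (A : ℤ → ℕ) (q : ℕ → Bool) (z : Tok) : Prop :=
  ∃ a b : ℤ, BD (P.txt z) A a b ∧ q b.toNat = true ∧ b < P.G z a ∧
    seg (P.txt z) a (b + 1) ∈ subL S

omit [Fintype Tok] in
theorem bidx_data {S : List Str} {A : ℤ → ℕ} {q : ℕ → Bool} {i : Σ _ : Str, ℕ}
    (hi : i ∈ bidx S A q) {z : Tok} (hz : i.1 <+: P.top (P.sh (-(i.2 : ℤ)) z)) :
    BD (P.txt z) A (-(i.2 : ℤ)) (i.1.length - 1 - i.2) ∧
      (i.1.length - 1 - i.2 : ℤ) < P.G z (-(i.2 : ℤ)) ∧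
      i.1 = seg (P.txt z) (-(i.2 : ℤ)) (i.1.length - 1 - i.2 + 1) := by
  obtain ⟨r, pos⟩ := i
  obtain ⟨h1, h2, h3, h4⟩ := mem_bidx.1 hi
  simp only at h1 h2 h3 h4 hz ⊢
  have h0 : 0 < pos := by
    simp only [blk, Bool.and_eq_true, decide_eq_true_eq] at h3; exact h3.1
  rw [top_sh] at hz
  have hl := hz.length_le
  rw [length_seg] at hl
  have e : r = seg (P.txt z) (-(pos : ℤ)) (r.length - 1 - pos + 1) := by
    have := eq_seg_of_prefix hz
    rwa [show -(pos : ℤ) + r.length = r.length - 1 - pos + 1 by ring] at this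
  refine ⟨?_, by omega, e⟩
  have := (blk_seg (A := A) (B := P.txt z) (a := -(pos : ℤ)) (b := r.length - 1 - pos)
    (by omega) (by omega)).1 (by rw [← e]; simpa using h3)
  exact ⟨by omega, by omega, this⟩

open Classical in
theorem bsum_cnt (S : List Str) (A : ℤ → ℕ) (q : ℕ → Bool) :
    bsum S P.cnt A q = (univ.filter fun z => P.Blocked S A q z).card := by
  rw [bsum_eq, sum_congr rfl fun i _ => P.cnt_sh i.1 (-(i.2 : ℤ)), ← card_biUnion]
  · congr 1
    ext z
    simp only [mem_biUnion, mem_filter, mem_univ, true_and]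
    constructor
    · rintro ⟨i, hi, hz⟩
      obtain ⟨h1, h2, h3⟩ := P.bidx_data hi hz
      obtain ⟨g1, g2, g3, g4⟩ := mem_bidx.1 hi
      refine ⟨_, _, h1, ?_, h2, h3 ▸ g1⟩
      rw [← g4]; congr 1; omega
    · rintro ⟨a, b, ⟨h1, h2, h3⟩, h4, h5, h6⟩
      refine ⟨⟨seg (P.txt z) a (b + 1), (-a).toNat⟩, mem_bidx.2 ⟨h6, ?_, ?_, ?_⟩, ?_⟩
      · simp only [length_seg]; omega
      · exact (blk_seg h1 h2).2 h3
      · simp only [length_seg]
        rw [← h4]; congr 1; omega
      · simp only
        rw [show -(((-a).toNat : ℕ) : ℤ) = a by omega, P.prefix_top_sh z (by omega)]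
        exact ⟨by omega, fun _ _ _ => rfl⟩
  · intro i hi j hj hne
    rw [Function.onFun, disjoint_left]
    intro z h1 h2
    simp only [mem_filter, mem_univ, true_and] at h1 h2
    obtain ⟨a1, -, a3⟩ := P.bidx_data hi h1
    obtain ⟨b1, -, b3⟩ := P.bidx_data hj h2
    obtain ⟨e1, e2⟩ := a1.unique b1
    apply hne
    have e : i.1 = j.1 := by rw [a3, b3, e1, e2]
    obtain ⟨r, pos⟩ := i
    obtain ⟨r', pos'⟩ := j
    simp only at e e1
    subst e
    have : pos = pos' := by omega
    subst this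
    rfl

/-- The condition on the right mismatch for an occurrence of the long word. -/
def qW (l : ℕ) : ℕ → Bool := fun b => decide (l ≤ b)

/-- The condition on the right mismatch for a last occurrence of the short word. -/
def qT (τ l : ℕ) : ℕ → Bool := fun b => decide (τ ≤ b) && decide (b < l)

omit [Fintype Tok] in
theorem Blocked.prefix {S : List Str} {A : ℤ → ℕ} {q : ℕ → Bool} {z : Tok} {l : ℕ} (hl : 0 < l)
    (h : P.Blocked S A q z) (hq : ∀ b, q b = true → l ≤ b) : seg A 0 l <+: P.top z := by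
  obtain ⟨a, b, ⟨h1, h2, h3, h4, h5⟩, h6, h7, -⟩ := h
  have := hq _ h6
  have := P.G_mono z h1.le
  rw [G_zero] at this
  rw [P.prefix_top z (by omega)]
  exact ⟨by omega, fun n g1 g2 => h5 n (by omega) (by omega)⟩

omit [Fintype Tok] in
theorem Blocked.not_prefix {S : List Str} {A : ℤ → ℕ} {z : Tok} {τ l : ℕ}
    (h : P.Blocked S A (qT τ l) z) : ¬ seg A 0 l <+: P.top z := by
  obtain ⟨a, b, ⟨h1, h2, h3, h4, h5⟩, h6, h7, -⟩ := h
  simp only [qT, Bool.and_eq_true, decide_eq_true_eq] at h6
  rw [P.prefix_top z (by omega)]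
  exact fun h => h4 (h.2 b h2 (by omega))

open Classical in
/-- Occurrences of the short word: those of the long word, blocked last ones, and the rest. -/
theorem cnt_split (S : List Str) (A : ℤ → ℕ) {τ l : ℕ} (hτ : 0 < τ) (hl : τ ≤ l) :
    P.cnt (seg A 0 τ) = P.cnt (seg A 0 l) + bsum S P.cnt A (qT τ l) +
      (univ.filter fun z => seg A 0 τ <+: P.top z ∧ ¬ seg A 0 l <+: P.top z ∧
        ¬ P.Blocked S A (qT τ l) z).card := by
  rw [bsum_cnt, cnt, cnt, ← card_union_of_disjoint, ← card_union_of_disjoint]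
  · congr 1
    ext z
    simp only [mem_occ, mem_union, mem_filter, mem_univ, true_and]
    constructor
    · intro h; tauto
    · rintro ((h | h) | h)
      · exact (seg_prefix (by omega)).trans h
      · exact Blocked.prefix P hτ h fun b hb => by
          simp only [qT, Bool.and_eq_true, decide_eq_true_eq] at hb; exact hb.1
      · exact h.1
  · rw [disjoint_left]
    intro z h1 h2
    simp only [mem_occ, mem_union, mem_filter, mem_univ, true_and] at h1 h2
    tauto
  · rw [disjoint_left]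
    intro z h1 h2
    simp only [mem_occ, mem_filter, mem_univ, true_and] at h1 h2
    exact Blocked.not_prefix P h2 h1

end Pre

end Crest.Agent.R287
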