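import Crest.Agent.R287.Defs

/-!
# Windows of two-sided texts
-/

namespace Crest.Agent.R287

/-- The window `[x, y)` of the text `B`. -/
def seg (B : ℤ → ℕ) (x y : ℤ) : Str := (List.range (y - x).toNat).map fun k : ℕ => B (x + k)

variable {A B B' : ℤ → ℕ} {x y w x' y' : ℤ}

@[simp] theorem length_seg (B : ℤ → ℕ) (x y : ℤ) : (seg B x y).length = (y - x).toNat := by
  simp [seg]

theorem getElem_seg {k : ℕ} (h : k < (seg B x y).length) : (seg B x y)[k] = B (x + k) := by
  simp [seg]

theorem getD_seg {k : ℕ} (h : (k : ℤ) < y - x) : (seg B x y).getD k 0 = B (x + k) := by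
  have : k < (seg B x y).length := by rw [length_seg]; omega
  rw [List.getD_eq_getElem _ _ this, getElem_seg]

theorem seg_ext (hl : y - x = y' - x')
    (h : ∀ n : ℤ, 0 ≤ n → n < y - x → B (x + n) = B' (x' + n)) : seg B x y = seg B' x' y' := by
  apply List.ext_getElem
  · simp [hl]
  · intro k h1 h2
    rw [getElem_seg, getElem_seg]
    rw [length_seg] at h1
    exact h k (by omega) (by omega)

theorem seg_congr (h : ∀ n : ℤ, x ≤ n → n < y → B n = B' n) : seg B x y = seg B' x y :=
  seg_ext rfl fun n h1 h2 => h _ (by omega) (by omega)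

theorem agree_of_seg_eq (h : seg B x y = seg B' x y) (n : ℤ) (h1 : x ≤ n) (h2 : n < y) :
    B n = B' n := by
  have e1 : (seg B x y).getD (n - x).toNat 0 = B (x + (n - x).toNat) := getD_seg (by omega)
  have e2 : (seg B' x y).getD (n - x).toNat 0 = B' (x + (n - x).toNat) := getD_seg (by omega)
  have e : x + ((n - x).toNat : ℤ) = n := by omega
  rw [h, e2, e] at e1
  exact e1.symm

theorem seg_nil (h : y ≤ x) : seg B x y = [] := by
  apply List.eq_nil_of_length_eq_zero; rw [length_seg]; omega

theorem seg_ne_nil (h : x < y) : seg B x y ≠ [] := by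
  intro e
  have := congrArg List.length e
  rw [length_seg] at this
  simp at this; omega

theorem seg_take {k : ℕ} (h : x + k ≤ y) : (seg B x y).take k = seg B x (x + k) := by
  apply List.ext_getElem
  · simp; omega
  · intro i h1 h2
    rw [List.getElem_take, getElem_seg, getElem_seg]

theorem seg_drop (k : ℕ) : (seg B x y).drop k = seg B (x + k) y := by
  apply List.ext_getElem
  · simp; omega
  · intro i h1 h2
    rw [List.getElem_drop, getElem_seg, getElem_seg]
    congr 1; push_cast; ring

theorem seg_prefix (h : y ≤ w) : seg B x y <+: seg B x w := by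
  by_cases hx : x ≤ y
  · have := seg_take (B := B) (x := x) (y := w) (k := (y - x).toNat) (by omega)
    rw [show x + ((y - x).toNat : ℤ) = y by omega] at this
    rw [← this]; exact List.take_prefix _ _
  · rw [seg_nil (by omega)]; exact List.nil_prefix

theorem seg_suffix (h : x ≤ x') : seg B x' y <:+ seg B x y := by
  have := seg_drop (B := B) (x := x) (y := y) (x' - x).toNat
  rw [show x + ((x' - x).toNat : ℤ) = x' by omega] at this
  rw [← this]; exact List.drop_suffix _ _

theorem seg_infix (h1 : x ≤ x') (h2 : y' ≤ y) : seg B x' y' <:+: seg B x y :=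
  (seg_suffix h1).isInfix.trans (seg_prefix h2).isInfix

theorem seg_tail : (seg B x y).tail = seg B (x + 1) y := by
  rw [← List.drop_one, seg_drop]; rfl

theorem seg_dropLast : (seg B x y).dropLast = seg B x (y - 1) := by
  by_cases h : x < y
  · rw [List.dropLast_eq_take, seg_take (by rw [length_seg]; omega)]
    congr 1; rw [length_seg]; omega
  · rw [seg_nil (by omega), seg_nil (by omega)]; rfl

theorem seg_prefix_iff (hx : x ≤ y) :
    seg B' x y <+: seg B x w ↔ (x < y → y ≤ w) ∧ ∀ n, x ≤ n → n < y → B n = B' n := by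
  constructor
  · intro h
    have hl := h.length_le
    rw [length_seg, length_seg] at hl
    refine ⟨fun _ => by omega, fun n h1 h2 => ?_⟩
    have e := List.prefix_iff_eq_take.1 h
    rw [length_seg, seg_take (by omega), show x + ((y - x).toNat : ℤ) = y by omega] at e
    exact (agree_of_seg_eq e n h1 h2).symm
  · rintro ⟨h1, h2⟩
    rcases eq_or_lt_of_le hx with rfl | hlt
    · rw [seg_nil le_rfl]; exact List.nil_prefix
    · rw [← seg_congr h2]; exact seg_prefix (h1 hlt)

theorem eq_seg_of_prefix {s : Str} (h : s <+: seg B x y) : s = seg B x (x + s.length) := by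
  have hl := h.length_le
  rw [length_seg] at hl
  rcases Nat.eq_zero_or_pos s.length with h0 | h0
  · rw [h0, seg_nil (by simp)]; exact List.eq_nil_of_length_eq_zero h0
  · rw [← seg_take (y := y) (by omega)]; exact List.prefix_iff_eq_take.1 h

/-- `B` has period `p`. -/
def Per (B : ℤ → ℕ) (p : ℤ) : Prop := ∀ n, B (n + p) = B n

theorem Per.mul {p : ℤ} (h : Per B p) (k n : ℤ) : B (n + k * p) = B n := by
  have : Function.Periodic B p := h
  exact (this.int_mul k) n

theorem Per.seg {p : ℤ} (h : Per B p) (x y : ℤ) : seg B (x + p) (y + p) = seg B x y :=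
  seg_ext (by ring) fun n _ _ => by rw [add_right_comm, h]

theorem Per.seg_mul {p : ℤ} (h : Per B p) (k x y : ℤ) :
    R287.seg B (x + k * p) (y + k * p) = R287.seg B x y :=
  seg_ext (by ring) fun n _ _ => by rw [add_right_comm, h.mul]

/-- Two texts with the same period that agree on a full period are equal. -/
theorem eq_of_agree {p : ℤ} (hp : 0 < p) (hA : Per A p) (hB : Per B p) {a b : ℤ} (hab : a + p ≤ b)
    (h : ∀ n, a ≤ n → n < b → A n = B n) : A = B := by
  funext n
  have h1 := Int.emod_nonneg (n - a) hp.ne'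
  have h2 := Int.emod_lt_of_pos (n - a) hp
  have e : n = (a + (n - a) % p) + ((n - a) / p) * p := by
    have := Int.emod_add_mul_ediv (n - a) p
    linarith [mul_comm p ((n - a) / p)]
  rw [e, hA.mul, hB.mul]
  exact h _ (by omega) (by omega)

/-- Weak Fine–Wilf theorem. -/
theorem eq_of_agree₂ {p q : ℤ} (hp : 0 < p) (hq : 0 < q) (hA : Per A p) (hB : Per B q) {a b : ℤ}
    (hab : a + p + q ≤ b) (h : ∀ n, a ≤ n → n < b → A n = B n) : A = B := by
  have h1 : (fun n => A (n + q)) = A := by
    refine eq_of_agree hp (fun n => by simp only [add_right_comm n p q]; exact hA _) hA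
      (a := a) (b := a + p) le_rfl fun n h1 h2 => ?_
    rw [h _ (by omega) (by omega), hB, h _ h1 (by omega)]
  exact eq_of_agree hq (fun n => congrFun h1 n) hB (a := a) (b := b) (by omega) h

theorem per_per (w : Str) (p : ℕ) : Per (per w p) p := fun n => by
  simp [per]

theorem per_seg {p : ℕ} (hp : 0 < p) (hA : Per A p) {y : ℤ} (hy : (p : ℤ) ≤ y) :
    per (seg A 0 y) p = A := by
  refine eq_of_agree (p := p) (by omega) (per_per _ _) hA (a := 0) (b := p) (by omega)
    fun n h1 h2 => ?_
  rw [per, Int.emod_eq_of_lt h1 h2, getD_seg (by omega)]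
  congr 1; omega

theorem cyc_seg {p : ℕ} (hp : 0 < p) (hA : Per A p) (x : ℤ) (L : ℕ) :
    cyc (seg A x (x + p)) L = seg A x (x + L) := by
  apply List.ext_getElem
  · simp [cyc]
  · intro i h1 h2
    rw [getElem_seg]
    simp only [cyc, List.getElem_map, List.getElem_range, length_seg, add_sub_cancel_left,
      Int.toNat_natCast]
    rw [getD_seg (by have := Nat.mod_lt i hp; omega)]
    have e : x + (i : ℤ) = (x + ((i % p : ℕ) : ℤ)) + ((i / p : ℕ) : ℤ) * p := by
      have := Nat.mod_add_div i p
      have h : (i : ℤ) = ((i % p : ℕ) : ℤ) + (p : ℤ) * ((i / p : ℕ) : ℤ) := by exact_mod_cast this.symm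
      linarith [mul_comm (p : ℤ) ((i / p : ℕ) : ℤ)]
    rw [e, hA.mul]

theorem cyc_self (u : Str) : cyc u u.length = u := by
  apply List.ext_getElem
  · simp [cyc]
  · intro i h1 h2
    simp only [cyc, List.getElem_map, List.getElem_range]
    rw [Nat.mod_eq_of_lt h2, List.getD_eq_getElem _ _ h2]

theorem blk_seg {a b : ℤ} (ha : a < 0) (hb : 0 ≤ b) :
    blk A (seg B a (b + 1)) (-a).toNat = true ↔
      B a ≠ A a ∧ B b ≠ A b ∧ ∀ n, a < n → n < b → B n = A n := by
  have e : (((-a).toNat : ℕ) : ℤ) = -a := by omega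
  simp only [blk, Bool.and_eq_true, decide_eq_true_eq, List.all_eq_true, List.mem_range,
    length_seg, beq_iff_eq, e]
  constructor
  · rintro ⟨-, h⟩
    have key : ∀ n, a ≤ n → n ≤ b → (B n = A n ↔ a < n ∧ n < b) := by
      intro n h1 h2
      have := h (n - a).toNat (by omega)
      rw [getD_seg (by omega), Bool.eq_iff_iff] at this
      simp only [decide_eq_true_eq, Bool.and_eq_true] at this
      rw [show a + ((n - a).toNat : ℤ) = n by omega,
        show ((n - a).toNat : ℤ) - -a = n by omega] at this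
      rw [this]; omega
    refine ⟨fun h => ?_, fun h => ?_, fun n h1 h2 => ?_⟩
    · have := (key a le_rfl (by omega)).1 h; omega
    · have := (key b (by omega) le_rfl).1 h; omega
    · exact (key n h1.le h2.le).2 ⟨h1, h2⟩
  · rintro ⟨h1, h2, h3⟩
    refine ⟨by omega, fun k hk => ?_⟩
    rw [getD_seg (by omega), Bool.eq_iff_iff]
    simp only [decide_eq_true_eq, Bool.and_eq_true]
    rw [show (k : ℤ) - -a = a + k by ring]
    constructor
    · intro h
      by_contra hc
      rcases (by omega : (k : ℤ) = 0 ∨ a + k = b) with h0 | h0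
      · rw [h0, add_zero] at h; exact h1 h
      · rw [h0] at h; exact h2 h
    · intro h
      exact h3 _ (by omega) (by omega)

theorem blk_shift {p : ℤ} (hA : Per A p) {r : Str} {pos pos' : ℕ} (k : ℤ)
    (h : (pos' : ℤ) = pos + k * p) (h0 : 0 < pos') (hb : blk A r pos = true) :
    blk A r pos' = true := by
  simp only [blk, Bool.and_eq_true, decide_eq_true_eq, List.all_eq_true, List.mem_range,
    beq_iff_eq] at hb ⊢
  refine ⟨h0, fun i hi => ?_⟩
  rw [← hb.2 i hi, ← hA.mul k ((i : ℤ) - pos'), h]
  congr 3; ring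

theorem mem_subL {S : List Str} {s : Str} : s ∈ subL S ↔ s ≠ [] ∧ ∃ x ∈ S, s <:+: x := by
  simp only [subL, List.mem_filter, List.mem_dedup, List.mem_flatMap, List.mem_tails,
    List.mem_inits, Bool.not_eq_true', List.isEmpty_eq_false_iff, List.infix_iff_prefix_suffix]
  constructor
  · rintro ⟨⟨x, hx, t, h1, h2⟩, h⟩; exact ⟨h, x, hx, t, h2, h1⟩
  · rintro ⟨h, x, hx, t, h1, h2⟩; exact ⟨⟨x, hx, t, h2, h1⟩, h⟩

theorem nodup_subL (S : List Str) : (subL S).Nodup := (List.nodup_dedup _).filter _

theorem subL_infix {S : List Str} {s r : Str} (hr : r ∈ subL S) (h : s <:+: r) (hs : s ≠ []) :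
    s ∈ subL S := by
  obtain ⟨-, x, hx, h'⟩ := mem_subL.1 hr
  exact mem_subL.2 ⟨hs, x, hx, h.trans h'⟩

theorem length_le_of_mem_subL {S : List Str} {s : Str} (h : s ∈ subL S) :
    s.length ≤ S.flatten.length := by
  obtain ⟨-, x, hx, h'⟩ := mem_subL.1 h
  exact h'.length_le.trans (List.sublist_flatten_of_mem hx).length_le

/-- The substrings as a finite set. -/
def Sub (S : List Str) : Finset Str := (subL S).toFinset

@[simp] theorem mem_Sub {S : List Str} {s : Str} : s ∈ Sub S ↔ s ∈ subL S := List.mem_toFinset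

theorem sum_subL (S : List Str) (g : Str → ℕ) : ((subL S).map g).sum = ∑ s ∈ Sub S, g s :=
  (List.sum_toFinset g (nodup_subL S)).symm

theorem sumT_eq (S : List Str) (f : Str → ℕ) (s : Str) :
    sumT S f s = ∑ r ∈ (Sub S).filter fun r => r.tail = s, f r := by
  rw [sumT, sum_subL, Finset.sum_filter]

theorem sumD_eq (S : List Str) (f : Str → ℕ) (s : Str) :
    sumD S f s = ∑ r ∈ (Sub S).filter fun r => r.dropLast = s, f r := by
  rw [sumD, sum_subL, Finset.sum_filter]

/-- The index set of `bsum`. -/
def bidx (S : List Str) (A : ℤ → ℕ) (q : ℕ → Bool) : Finset (Σ _ : Str, ℕ) :=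
  (Sub S).sigma fun r => (Finset.range r.length).filter fun pos =>
    blk A r pos = true ∧ q (r.length - 1 - pos) = true

theorem mem_bidx {S : List Str} {q : ℕ → Bool} {i : Σ _ : Str, ℕ} :
    i ∈ bidx S A q ↔ i.1 ∈ subL S ∧ i.2 < i.1.length ∧ blk A i.1 i.2 = true ∧
      q (i.1.length - 1 - i.2) = true := by
  simp [bidx]

theorem bsum_eq (S : List Str) (f : Str → ℕ) (A : ℤ → ℕ) (q : ℕ → Bool) :
    bsum S f A q = ∑ i ∈ bidx S A q, f i.1 := by
  rw [bsum, sum_subL, bidx, Finset.sum_sigma]
  refine Finset.sum_congr rfl fun r _ => ?_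
  rw [Finset.sum_filter, ← List.sum_toFinset _ List.nodup_range, List.toFinset_range]
  simp only [Bool.and_eq_true]

end Crest.Agent.R287
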