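import Crest.Agent.R287.Pre

/-!
# The forced counts are a fixed point of `phi` and lower bounds for every superstring
-/

namespace Crest.Agent.R287

open Finset

theorem border_seg {s w : Str} (h1 : s.length < w.length) (h2 : w.take s.length = s)
    (h3 : w.drop (w.length - s.length) = s) :
    w = seg (per w (w.length - s.length)) 0 w.length ∧
      s = seg (per w (w.length - s.length)) 0 s.length := by
  set p := w.length - s.length with hp
  have hp0 : 0 < p := by omega
  have key : ∀ i, i < w.length → w.getD i 0 = w.getD (i % p) 0 := by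
    intro i
    induction i using Nat.strong_induction_on with
    | _ i ih =>
      intro hi
      by_cases h : i < p
      · rw [Nat.mod_eq_of_lt h]
      · have e1 : w.getD i 0 = s.getD (i - p) 0 := by
          rw [← h3, List.getD_eq_getElem _ _ hi, List.getD_eq_getElem _ _ (by simp; omega),
            List.getElem_drop]
          congr 1; omega
        have e2 : w.getD (i - p) 0 = s.getD (i - p) 0 := by
          rw [← h2, List.getD_eq_getElem _ _ (by omega),
            List.getD_eq_getElem _ _ (by simp; omega), List.getElem_take]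
        rw [e1, ← e2, ih (i - p) (by omega) (by omega), ← Nat.mod_eq_sub_mod (by omega)]
  have e : w = seg (per w p) 0 w.length := by
    apply List.ext_getElem
    · simp
    · intro i g1 g2
      rw [getElem_seg, zero_add, per, ← List.getD_eq_getElem _ 0 g1, key i g1]
      congr 1
  refine ⟨e, ?_⟩
  have := seg_take (B := per w p) (x := 0) (y := w.length) (k := s.length) (by omega)
  rw [← e, h2, zero_add] at this
  exact this

theorem bsum_mono {S : List Str} {f g : Str → ℕ} (h : ∀ s, f s ≤ g s) (A : ℤ → ℕ)
    (q : ℕ → Bool) : bsum S f A q ≤ bsum S g A q := by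
  rw [bsum_eq, bsum_eq]; exact sum_le_sum fun i _ => h _

namespace Pre

variable {Tok : Type} [Fintype Tok] (P : Pre Tok)

/-- The token system comes from a linear string. -/
def Acyc : Prop := ∀ z (k : ℕ), k < P.len z → P.len (P.sh k z) + k = P.len z

omit [Fintype Tok] in
theorem all_blocked (hP : P.Acyc) {S : List Str} {A : ℤ → ℕ} {τ p : ℕ} (hτ : 0 < τ) (hp : 0 < p)
    (hA : Per A p)
    (h : ∀ z, seg A 0 τ <+: P.top z → ¬ seg A 0 (τ + p : ℕ) <+: P.top z →
      P.Blocked S A (qT τ (τ + p)) z) (z : Tok) (hz : seg A 0 (τ + p : ℕ) <+: P.top z) :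
    P.Blocked S A (qW (τ + p)) z := by
  induction hn : P.len z using Nat.strong_induction_on generalizing z with
  | _ n ih =>
    have hz' := (P.prefix_top z (by omega)).1 hz
    have hlen := hP z p (by omega)
    have ht : seg A 0 τ <+: P.top (P.sh p z) := by
      rw [P.prefix_top _ (by omega)]
      refine ⟨by omega, fun k g1 g2 => ?_⟩
      rw [txt_sh, hz'.2 _ (by omega) (by omega), hA]
    have hb : ∃ q : ℕ → Bool, (∀ b, q b = true → τ ≤ b) ∧ P.Blocked S A q (P.sh p z) := by
      by_cases hw : seg A 0 (τ + p : ℕ) <+: P.top (P.sh p z)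
      · exact ⟨_, fun b hb => by simp only [qW, decide_eq_true_eq] at hb; omega,
          ih _ (by omega) _ hw rfl⟩
      · exact ⟨_, fun b hb => by
          simp only [qT, Bool.and_eq_true, decide_eq_true_eq] at hb; omega, h _ ht hw⟩
    obtain ⟨q, hq, a, b, ⟨h1, h2, h3, h4, h5⟩, h6, h7, h8⟩ := hb
    have := hq _ h6
    rw [txt_sh, ← hA] at h3 h4
    have ha : a + p < 0 := by
      by_contra hc
      exact h3 (hz'.2 _ (by omega) (by omega))
    refine ⟨a + p, b + p, ⟨ha, by omega, h3, h4, fun k g1 g2 => ?_⟩, ?_, ?_, ?_⟩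
    · have := h5 (k - p) (by omega) (by omega)
      rwa [txt_sh, ← hA, sub_add_cancel] at this
    · simp only [qW, decide_eq_true_eq]; omega
    · rw [G_sh] at h7; omega
    · rwa [seg_sh, add_right_comm b] at h8

theorem rule_le (hP : P.Acyc) {S : List Str} {f : Str → ℕ} (hf : ∀ s, f s ≤ P.cnt s)
    {s : Str} (hs : s ≠ []) (w : Str) : rule S f s w ≤ P.cnt s := by
  classical
  unfold rule
  split_ifs with hc
  swap
  · exact Nat.zero_le _
  obtain ⟨h1, h2, h3, h4⟩ := hc
  obtain ⟨ew, es⟩ := border_seg h1 h2 h3
  set p := w.length - s.length with hp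
  set A := per w p with hA
  set τ := s.length with hτ
  have hτ0 : 0 < τ := List.length_pos_iff.2 hs
  have hl : w.length = τ + p := by omega
  rw [hl] at h4 ew ⊢
  change bsum S f A (qW (τ + p)) < f w at h4
  change f w + bsum S f A (qT τ (τ + p)) + 1 ≤ _
  have hsp := P.cnt_split S A hτ0 (Nat.le_add_right τ p)
  rw [← es, ← ew] at hsp
  have g1 := hf w
  have g2 := bsum_mono (S := S) hf A (qT τ (τ + p))
  rcases Nat.eq_zero_or_pos (univ.filter fun z => s <+: P.top z ∧ ¬ w <+: P.top z ∧
    ¬ P.Blocked S A (qT τ (τ + p)) z).card with h0 | h0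
  swap
  · omega
  rw [card_eq_zero, filter_eq_empty_iff] at h0
  have hall := P.all_blocked hP (S := S) hτ0 (show 0 < p by omega) (per_per w p) (by
    intro z a1 a2
    rw [← es] at a1
    rw [← ew] at a2
    by_contra a3
    exact h0 (mem_univ z) ⟨a1, a2, a3⟩)
  have g3 : P.cnt w ≤ bsum S P.cnt A (qW (τ + p)) := by
    rw [bsum_cnt]
    refine card_le_card fun z hz => ?_
    rw [mem_occ, ew] at hz
    simpa using hall z hz
  have g4 : ∃ i ∈ bidx S A (qW (τ + p)), f i.1 < P.cnt i.1 := by
    apply exists_lt_of_sum_lt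
    rw [← bsum_eq, ← bsum_eq]; omega
  obtain ⟨⟨r, pos⟩, hi, hlt⟩ := g4
  obtain ⟨b1, b2, b3, b4⟩ := mem_bidx.1 hi
  simp only [qW, decide_eq_true_eq] at b1 b2 b3 b4 hlt
  have h0pos : 0 < pos := by
    simp only [blk, Bool.and_eq_true, decide_eq_true_eq] at b3; exact b3.1
  have g5 : bsum S f A (qT τ (τ + p)) < bsum S P.cnt A (qT τ (τ + p)) := by
    rw [bsum_eq, bsum_eq]
    set k := (r.length - 1 - pos - τ) / p with hk
    have e1 := Nat.div_add_mod (r.length - 1 - pos - τ) p
    have e2 := Nat.mod_lt (r.length - 1 - pos - τ) (show 0 < p by omega)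
    rw [← hk] at e1
    refine sum_lt_sum (fun i _ => hf _) ⟨⟨r, pos + p * k⟩, mem_bidx.2 ⟨b1, ?_, ?_, ?_⟩, hlt⟩
    · simp only; omega
    · exact blk_shift (per_per w p) k (by push_cast; ring) (by simp only; omega) b3
    · simp only [qT, Bool.and_eq_true, decide_eq_true_eq]; omega
  omega

theorem phi_le (hP : P.Acyc) {S : List Str} (h1 : ∀ s ∈ subL S, 1 ≤ P.cnt s) {f : Str → ℕ}
    (hf : ∀ s, f s ≤ P.cnt s) (s : Str) : phi S f s ≤ P.cnt s := by
  unfold phi
  split_ifs with hs
  swap
  · exact Nat.zero_le _
  refine max_le (max_le (h1 s hs) (max_le ?_ ?_)) ?_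
  · refine le_trans ?_ (P.sumT_cnt_le S s)
    rw [sumT_eq, sumT_eq]; exact sum_le_sum fun r _ => hf r
  · refine le_trans ?_ (P.sumD_cnt_le S s)
    rw [sumD_eq, sumD_eq]; exact sum_le_sum fun r _ => hf r
  · refine List.max_le_of_forall_le _ _ fun x hx => ?_
    obtain ⟨w, -, rfl⟩ := List.mem_map.1 hx
    exact P.rule_le hP hf (mem_subL.1 hs).1 w

theorem iter_le (hP : P.Acyc) {S : List Str} (h1 : ∀ s ∈ subL S, 1 ≤ P.cnt s) (k : ℕ) (s : Str) :
    (phi S)^[k] (fun _ => 0) s ≤ P.cnt s := by
  induction k generalizing s with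
  | zero => exact Nat.zero_le _
  | succ k ih => rw [Function.iterate_succ_apply']; exact P.phi_le hP h1 ih s

end Pre

/-- The token system of a nonempty linear string. -/
def strPre (T : Str) [NeZero T.length] : Pre (ZMod T.length) where
  σ := Equiv.addRight 1
  txt z n := T.getD (z + (n : ZMod T.length)).val 0
  len z := T.length - z.val
  txt_σ z n := by
    simp only [Equiv.coe_addRight, Int.cast_add, Int.cast_one]
    rw [add_assoc, add_comm 1]
  len_pos z := by have := ZMod.val_lt z; omega
  len_σ z := by
    have := ZMod.val_lt z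
    have h2 : (z + 1).val ≤ z.val + 1 := by
      refine (ZMod.val_add_le _ _).trans ?_
      have : (1 : ZMod T.length).val ≤ 1 := by
        rw [← Nat.cast_one, ZMod.val_natCast]; exact Nat.mod_le _ _
      omega
    simp only [Equiv.coe_addRight]; omega

section
variable (T : Str) [NeZero T.length]

theorem strPre_sh (n : ℤ) (z : ZMod T.length) : (strPre T).sh n z = z + n := by
  simp [Pre.sh, strPre]

omit [NeZero T.length] in
theorem val_add_nat {z : ZMod T.length} {k : ℕ} (h : z.val + k < T.length) :
    (z + (k : ZMod T.length)).val = z.val + k := by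
  have : (k : ZMod T.length).val = k := ZMod.val_natCast_of_lt (by omega)
  rw [ZMod.val_add_of_lt (by omega), this]

theorem strPre_acyc : (strPre T).Acyc := by
  intro z k hk
  rw [strPre_sh]
  simp only [strPre, Int.cast_natCast] at hk ⊢
  rw [val_add_nat T (by omega)]; omega

theorem strPre_top (z : ZMod T.length) : (strPre T).top z = T.drop z.val := by
  apply List.ext_getElem
  · simp [Pre.top, strPre]
  · intro i h1 h2
    simp only [Pre.top, getElem_seg, List.getElem_drop]
    simp only [strPre, zero_add, Int.cast_natCast]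
    rw [List.length_drop] at h2
    rw [val_add_nat T (by omega), List.getD_eq_getElem _ _ (by omega)]

theorem strPre_one {s : Str} (hs : s ≠ []) (h : s <:+: T) : 1 ≤ (strPre T).cnt s := by
  obtain ⟨a, b, e⟩ := h
  have hl := congrArg List.length e
  have := List.length_pos_iff.2 hs
  simp only [List.length_append] at hl
  refine card_pos.2 ⟨(a.length : ZMod T.length), ?_⟩
  rw [Pre.mem_occ, strPre_top, ZMod.val_natCast_of_lt (by omega), ← e, List.append_assoc,
    List.drop_left]
  exact List.prefix_append _ _

end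

theorem subL_infix_super {S : List Str} {T : Str} (hT : ∀ s ∈ S, s <:+: T) {s : Str}
    (hs : s ∈ subL S) : s <:+: T := by
  obtain ⟨-, x, hx, h⟩ := mem_subL.1 hs
  exact h.trans (hT x hx)

theorem neZero_of_mem {S : List Str} {T : Str} (hT : ∀ s ∈ S, s <:+: T) {s : Str}
    (hs : s ∈ subL S) : NeZero T.length := by
  have h1 := (subL_infix_super hT hs).length_le
  have h2 := List.length_pos_iff.2 (mem_subL.1 hs).1
  exact ⟨by omega⟩

theorem iter_zero {S : List Str} {s : Str} (hs : s ∉ subL S) (k : ℕ) :
    (phi S)^[k] (fun _ => 0) s = 0 := by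
  cases k with
  | zero => rfl
  | succ k => rw [Function.iterate_succ_apply', phi, if_neg hs]

theorem boundStmt : BoundStmt := by
  intro S k s
  by_cases hs : s ∈ subL S
  · have hT : ∀ s ∈ S, s <:+: S.flatten := fun s hs => List.infix_of_mem_flatten hs
    have := neZero_of_mem hT hs
    have h1 := (strPre S.flatten).iter_le (strPre_acyc _) (S := S)
      (fun r hr => strPre_one _ (mem_subL.1 hr).1 (subL_infix_super hT hr)) k s
    have h2 := (strPre S.flatten).cnt_le s
    rw [ZMod.card] at h2
    omega
  · rw [iter_zero hs]; exact Nat.zero_le _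

/-- The letters of the forced counts are paid by every superstring. -/
theorem sum_letters_le {S : List Str} {T : Str} (hT : ∀ s ∈ S, s <:+: T) :
    ∑ r ∈ (Sub S).filter fun r => r.length = 1, mm S r ≤ T.length := by
  classical
  rcases ((Sub S).filter fun r => r.length = 1).eq_empty_or_nonempty with h | ⟨s, hs⟩
  · rw [h]; simp
  have := neZero_of_mem hT (mem_Sub.1 (mem_filter.1 hs).1)
  refine (sum_le_sum fun r _ => (strPre T).iter_le (strPre_acyc _) (S := S)
      (fun r hr => strPre_one _ (mem_subL.1 hr).1 (subL_infix_super hT hr)) _ r).trans ?_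
  rw [(strPre T).sum_cnt_length (l := 1) fun r hr => (mem_filter.1 hr).2]
  exact (card_le_univ _).trans (ZMod.card _).le

theorem bsum_local {S : List Str} {f g : Str → ℕ} {l : ℕ} (h : ∀ r, l < r.length → f r = g r)
    (A : ℤ → ℕ) {q : ℕ → Bool} (hq : ∀ b, q b = true → l ≤ b) : bsum S f A q = bsum S g A q := by
  rw [bsum_eq, bsum_eq]
  refine sum_congr rfl fun i hi => h _ ?_
  obtain ⟨-, h2, -, h4⟩ := mem_bidx.1 hi
  have := hq _ h4
  omega

theorem phi_local {S : List Str} {f g : Str → ℕ} {s : Str}
    (h : ∀ r, s.length < r.length → f r = g r) : phi S f s = phi S g s := by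
  have e1 : sumT S f s = sumT S g s := by
    rw [sumT_eq, sumT_eq]
    exact sum_congr rfl fun r hr => h r (by rw [Pre.length_of_tail hr]; omega)
  have e2 : sumD S f s = sumD S g s := by
    rw [sumD_eq, sumD_eq]
    exact sum_congr rfl fun r hr => h r (by rw [Pre.length_of_dropLast hr]; omega)
  have e3 : rule S f s = rule S g s := by
    funext w
    unfold rule
    by_cases hw : s.length < w.length
    · rw [h w hw, bsum_local h _ (q := fun b => decide (w.length ≤ b))
        (fun b hb => by simp only [decide_eq_true_eq] at hb; omega),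
        bsum_local h _ (q := fun b => decide (s.length ≤ b) && decide (b < w.length))
        (fun b hb => by simp only [Bool.and_eq_true, decide_eq_true_eq] at hb; omega)]
    · rw [if_neg fun h => hw h.1, if_neg fun h => hw h.1]
  unfold phi
  rw [e1, e2, e3]

theorem iter_stable (S : List Str) (k : ℕ) (s : Str) (h : S.flatten.length < k + s.length) :
    (phi S)^[k + 1] (fun _ => 0) s = (phi S)^[k] (fun _ => 0) s := by
  induction k generalizing s with
  | zero =>
    have hs : s ∉ subL S := fun hs => by have := length_le_of_mem_subL hs; omega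
    rw [iter_zero hs, iter_zero hs]
  | succ k ih =>
    rw [Function.iterate_succ_apply', Function.iterate_succ_apply' (n := k)]
    refine phi_local fun r hr => ?_
    rw [← Function.iterate_succ_apply' (f := phi S)]
    exact ih r (by omega)

theorem phi_mm (S : List Str) (s : Str) : phi S (mm S) s = mm S s := by
  rw [mm, ← Function.iterate_succ_apply' (f := phi S)]
  exact iter_stable S _ s (by omega)

/-- The properties of the forced counts used by the construction. -/
structure Valid (S : List Str) (f : Str → ℕ) : Prop where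
  zero : ∀ s, s ∉ subL S → f s = 0
  one : ∀ s ∈ subL S, 1 ≤ f s
  T : ∀ s ∈ subL S, sumT S f s ≤ f s
  D : ∀ s ∈ subL S, sumD S f s ≤ f s
  rule : ∀ s ∈ subL S, ∀ w ∈ subL S, rule S f s w ≤ f s

theorem valid_mm (S : List Str) : Valid S (mm S) := by
  refine ⟨fun s hs => iter_zero hs _, fun s hs => ?_, fun s hs => ?_, fun s hs => ?_,
    fun s hs w hw => ?_⟩
  all_goals have h := phi_mm S s; rw [phi, if_pos hs] at h
  · omega
  · omega
  · omega
  · have : rule S (mm S) s w ≤ ((subL S).map (rule S (mm S) s)).foldr max 0 :=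
      List.le_max_of_le (List.mem_map.2 ⟨w, hw, rfl⟩) le_rfl
    omega

end Crest.Agent.R287
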